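import Crest.Agent.X261.Fam.Defs

/-!
# Row 261, package FAM (helper12), part GA: integration of invariant densities over the quotient

* `Den D M a R Φ` : an `M`-invariant continuous density on the covering, supported in `‖a‖ ≤ R`;
* `gl`, `IM`      : the function on `D.cov (G ⧸ M)` and its integral;
* `IM_loc`, `le_IM` : local formulas.
-/

set_option autoImplicit false
set_option linter.unusedSectionVars false

open Set Filter Topology MeasureTheory Matrix
open scoped ComplexConjugate ComplexOrder InnerProductSpace ContDiff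

namespace Crest.Agent.X261.Fam

open Crest.Agent.R275.Geo Crest.Agent.R275.Core144 Crest.Agent.R273.UCov_914
open Crest.Agent.R273.Kah_333 Crest.Agent.R273.Vol_333 Crest.Agent.R273.Vm_333
open Crest.Agent.R273.Defs_333
open Crest.Agent.R273.RMan4_798 (pullKah)
open Crest.Agent.T223.Hm (ix ix_Dj ix_mem)
open Crest.Agent.X261.Cov.A Crest.Agent.X261.Cov.B Crest.Agent.X261.Cov.D

noncomputable section

/-! ### real coordinates preserve the volume -/

/-- `cc` as a linear isometry -/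
def ccI (n : ℕ) : EuclideanSpace ℝ (RI n) ≃ₗᵢ[ℝ] Cn n where
  toFun x := cc (WithLp.ofLp x)
  invFun z := WithLp.toLp 2 (rc z)
  left_inv x := by
    apply (WithLp.ofLp_injective 2)
    exact rc_cc _
  right_inv z := by
    exact cc_rc z
  map_add' x y := by
    ext a
    simp only [cc_apply, WithLp.ofLp_add, Pi.add_apply, PiLp.add_apply]
    push_cast
    ring
  map_smul' c x := by
    ext a
    simp only [cc_apply, WithLp.ofLp_smul, Pi.smul_apply, PiLp.smul_apply, smul_eq_mul,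
      RingHom.id_apply, Complex.real_smul]
    push_cast
    ring
  norm_map' x := by
    change ‖cc (WithLp.ofLp x)‖ = ‖x‖
    rw [EuclideanSpace.norm_eq, EuclideanSpace.norm_eq]
    congr 1
    rw [Fintype.sum_prod_type]
    refine Finset.sum_congr rfl fun a _ => ?_
    rw [Fin.sum_univ_two, cc_apply, ← Complex.normSq_eq_norm_sq, Complex.normSq_apply]
    simp
    ring

theorem mp_cc (n : ℕ) : MeasurePreserving (cc : (RI n → ℝ) → Cn n) volume volume :=
  (ccI n).measurePreserving.comp (PiLp.volume_preserving_toLp (RI n))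

theorem me_cc (n : ℕ) : MeasurableEmbedding (cc : (RI n → ℝ) → Cn n) :=
  (((PiLp.continuousLinearEquiv 2 ℝ fun _ : RI n => ℝ).symm.toHomeomorph).trans
    (ccI n).toHomeomorph).measurableEmbedding

/-- integrals over a chart -/
theorem setIntegral_chart {n : ℕ} {Y : Type} [TopologicalSpace Y] {B : Atl n Y} [Countable B.ι]
    [MeasurableSpace Y] [BorelSpace Y] (h : HM (KB B)⁻¹) (p : B.ι) {f : Y → ℂ}
    (hf : AEStronglyMeasurable f (vm h)) :
    ∫ y in (B.e p).source, f y ∂vm h =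
      ∫ z in (B.e p).target, h.w p ((B.e p).symm z) • f ((B.e p).symm z) := by
  rw [setIntegral_vm h p hf]
  exact (mp_cc n).setIntegral_preimage_emb (me_cc n)
    (fun z => h.w p ((B.e p).symm z) • f ((B.e p).symm z)) (B.e p).target

variable {n q : ℕ} {X : Type} [TopologicalSpace X] {A : Atl n X} {G : Type} [Group G]

theorem rd_pt (D : MonD A G) {W : Type*} (f : D.cov G → W) {i : A.ι} (v : G) {x : X}
    (hx : x ∈ (A.e i).source) : rd D f i v (A.e i x) = f (D.pt i v x) := by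
  rw [rd, (A.e i).left_inv hx]

theorem rd_deck (D : MonD A G) {W : Type*} (f : D.cov G → W) (i : A.ι) (v g : G) :
    rd D f i (v * g⁻¹) = rd D (fun e => f (g • e)) i v := by
  funext z
  simp only [rd, D.deck_pt]

/-- an invariant density -/
structure Den (D : MonD A G) (M : Subgroup G) (a : D.cov G → Cn q) (R : ℝ)
    (Φ : A.ι → G → Cn n → ℂ) : Prop where
  law : ∀ i j v, ∀ x ∈ (A.e i).source ∩ (A.e j).source,
    Φ i v (A.e i x) = ((‖(Jm A i j x).det‖ ^ 2 : ℝ) : ℂ) * Φ j (D.c i j x * v) (A.e j x)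
  inv : ∀ m ∈ M, ∀ i v, ∀ z ∈ (A.e i).target, Φ i (v * m⁻¹) z = Φ i v z
  cont : ∀ i v, ContinuousOn (Φ i v) (A.e i).target
  supp : ∀ i v, ∀ z ∈ (A.e i).target, R < ‖rd D a i v z‖ → Φ i v z = 0

variable {D : MonD A G} {M : Subgroup G} {a : D.cov G → Cn q} {R : ℝ}
variable {Φ Ψ : A.ι → G → Cn n → ℂ}

namespace Den

theorem mono (h : Den D M a R Φ) {R' : ℝ} (hR : R ≤ R') : Den D M a R' Φ :=
  ⟨h.law, h.inv, h.cont, fun i v z hz h1 => h.supp i v z hz (hR.trans_lt h1)⟩

theorem zero : Den D M a R fun _ _ _ => 0 :=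
  ⟨fun _ _ _ _ _ => (mul_zero _).symm, fun _ _ _ _ _ _ => rfl, fun _ _ => continuousOn_const,
    fun _ _ _ _ _ => rfl⟩

theorem add (h : Den D M a R Φ) (h' : Den D M a R Ψ) :
    Den D M a R fun i v z => Φ i v z + Ψ i v z :=
  ⟨fun i j v x hx => by rw [h.law i j v x hx, h'.law i j v x hx, mul_add],
    fun m hm i v z hz => by rw [h.inv m hm i v z hz, h'.inv m hm i v z hz],
    fun i v => (h.cont i v).add (h'.cont i v),
    fun i v z hz h1 => by rw [h.supp i v z hz h1, h'.supp i v z hz h1, add_zero]⟩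

theorem smul (h : Den D M a R Φ) (c : ℂ) : Den D M a R fun i v z => c * Φ i v z :=
  ⟨fun i j v x hx => by rw [h.law i j v x hx, mul_left_comm],
    fun m hm i v z hz => by rw [h.inv m hm i v z hz],
    fun i v => continuousOn_const.mul (h.cont i v),
    fun i v z hz h1 => by rw [h.supp i v z hz h1, mul_zero]⟩

theorem sub (h : Den D M a R Φ) (h' : Den D M a R Ψ) :
    Den D M a R fun i v z => Φ i v z - Ψ i v z := by
  have := h.add (h'.smul (-1))
  simpa only [neg_one_mul, ← sub_eq_add_neg] using this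

theorem sum {κ : Type*} (s : Finset κ) {Φ : κ → A.ι → G → Cn n → ℂ}
    (h : ∀ k ∈ s, Den D M a R (Φ k)) : Den D M a R fun i v z => ∑ k ∈ s, Φ k i v z := by
  classical
  induction s using Finset.induction_on with
  | empty => simpa using zero
  | insert k s hk ih =>
    simp only [Finset.sum_insert hk]
    exact (h k (Finset.mem_insert_self _ _)).add
      (ih fun l hl => h l (Finset.mem_insert_of_mem hl))

theorem congr (h : Den D M a R Φ) (e : ∀ i v, ∀ z ∈ (A.e i).target, Ψ i v z = Φ i v z) :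
    Den D M a R Ψ :=
  ⟨fun i j v x hx => by
      rw [e i v _ ((A.e i).map_source hx.1), e j _ _ ((A.e j).map_source hx.2), h.law i j v x hx],
    fun m hm i v z hz => by rw [e _ _ z hz, e _ _ z hz, h.inv m hm i v z hz],
    fun i v => (h.cont i v).congr (e i v),
    fun i v z hz h1 => by rw [e _ _ z hz, h.supp i v z hz h1]⟩

theorem out (h : Den D M a R Φ) (i : A.ι) (v : G) {z : Cn n} (hz : z ∈ (A.e i).target) :
    Φ i (v : G ⧸ M).out z = Φ i v z := by
  obtain ⟨m, hm⟩ := QuotientGroup.mk_out_eq_mul M v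
  rw [hm, ← h.inv _ (M.inv_mem m.2) i v z hz, inv_inv]

end Den

theorem det_law (K : Kah A) {i j : A.ι} {x : X} (hx : x ∈ (A.e i).source ∩ (A.e j).source) :
    (K.g i x).det = ((‖(Jm A i j x).det‖ ^ 2 : ℝ) : ℂ) * (K.g j x).det := by
  rw [K.tr i j x hx, ← Matrix.det_transpose (Jm A i j x), ← det_conj]
  rfl

variable [Finite A.ι] [Countable G]

/-- the function of a density -/
def gl (D : MonD A G) (K : Kah A) (M : Subgroup G) (Φ : A.ι → G → Cn n → ℂ)
    (e : D.cov (G ⧸ M)) : ℂ :=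
  Φ (ix A (D.pr e)) (cd D e).out (A.e (ix A (D.pr e)) (D.pr e)) / (K.g (ix A (D.pr e)) (D.pr e)).det

variable (K : Kah A)

theorem Den.gl_pt (h : Den D M a R Φ) {i : A.ι} (v : G) {x : X} (hx : x ∈ (A.e i).source) :
    gl D K M Φ (D.pt i (v : G ⧸ M) x) = Φ i v (A.e i x) / (K.g i x).det := by
  have hj := ix_mem (A := A) x
  have h1 : cd D (D.pt i (v : G ⧸ M) x) = ((D.c i (ix A x) x * v : G) : G ⧸ M) :=
    D.co_pt' _ hx hj
  have h2 : ((‖(Jm A i (ix A x) x).det‖ ^ 2 : ℝ) : ℂ) ≠ 0 := fun h0 => by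
    have := det_law K (x := x) ⟨hx, hj⟩
    rw [h0, zero_mul] at this
    exact (K.pos i x hx).det_pos.ne' this
  rw [gl, h1, D.pr_pt, h.out _ _ ((A.e _).map_source hj), h.law i (ix A x) v x ⟨hx, hj⟩,
    det_law K ⟨hx, hj⟩, mul_div_mul_left _ _ h2]

theorem Den.gl_sheet (h : Den D M a R Φ) {i : A.ι} {w : G ⧸ M} {e : D.cov (G ⧸ M)}
    (he : e ∈ D.sheet i w) :
    gl D K M Φ e = Φ i w.out (A.e i (D.pr e)) / (K.g i (D.pr e)).det := by
  rw [← h.gl_pt K _ he.1, QuotientGroup.out_eq', D.pt_of_mem he]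

theorem continuousOn_det (i : A.ι) :
    ContinuousOn (fun z => (K.g i ((A.e i).symm z)).det) (A.e i).target := by
  have h1 : ContinuousOn (fun z => K.g i ((A.e i).symm z)) (A.e i).target :=
    continuousOn_pi.2 fun a => continuousOn_pi.2 fun b => (K.sm i a b).continuousOn
  exact (continuous_id.matrix_det).comp_continuousOn h1

theorem Den.continuous_gl (h : Den D M a R Φ) : Continuous (gl D K M Φ) := by
  rw [continuous_iff_continuousAt]
  intro e
  obtain ⟨i, hi⟩ := A.cover (D.pr e)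
  have hz := (A.e i).map_source hi
  have h1 : ContinuousAt (fun z => Φ i (D.co i e).out z / (K.g i ((A.e i).symm z)).det)
      (A.e i (D.pr e)) :=
    (((h.cont i _).div (continuousOn_det K i) fun z hz =>
      (K.pos i _ ((A.e i).map_target hz)).det_pos.ne').continuousAt
      ((A.e i).open_target.mem_nhds hz))
  have h2 : ContinuousAt (fun e' : D.cov (G ⧸ M) => A.e i (D.pr e')) e :=
    ContinuousAt.comp (f := D.pr) ((A.e i).continuousAt hi) D.continuous_pr.continuousAt
  refine (ContinuousAt.comp (f := fun e' : D.cov (G ⧸ M) => A.e i (D.pr e')) h1 h2).congr ?_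
  filter_upwards [D.co_eventually hi] with e' he'
  rw [h.gl_sheet K (i := i) (w := D.co i e) he', Function.comp_apply, (A.e i).left_inv he'.1]

omit [Countable G] in
theorem Dat.exists_cpt (hd : Dat D M a) (R : ℝ) : ∃ Z : Set (D.cov (G ⧸ M)), IsCompact Z ∧
    ∀ i v, ∀ x ∈ (A.e i).source, ‖a (D.pt i v x)‖ ≤ R → D.pt i (v : G ⧸ M) x ∈ Z := by
  obtain ⟨Kc, hK, h⟩ := hd.prop R
  have hc : Cpt D D (QuotientGroup.mk : G → G ⧸ M) := fun _ _ _ _ => rfl
  refine ⟨cmap D D QuotientGroup.mk '' Kc, hK.image (continuous_cmap hc), fun i v x _ h1 => ?_⟩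
  obtain ⟨m, hm, h2⟩ := h _ h1
  refine ⟨_, h2, ?_⟩
  rw [D.deck_pt, cmap_pt hc, QuotientGroup.mk_mul_of_mem _ (M.inv_mem hm)]

theorem Den.gl_off (h : Den D M a R Φ) {Z : Set (D.cov (G ⧸ M))}
    (hZ : ∀ i v, ∀ x ∈ (A.e i).source, ‖a (D.pt i v x)‖ ≤ R → D.pt i (v : G ⧸ M) x ∈ Z)
    {e : D.cov (G ⧸ M)} (he : e ∉ Z) : gl D K M Φ e = 0 := by
  obtain ⟨i, hi⟩ := A.cover (D.pr e)
  rw [h.gl_sheet K (D.mem_sheet_co hi), h.supp i _ _ ((A.e i).map_source hi), zero_div]
  by_contra h1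
  rw [not_lt, rd_pt D a _ hi] at h1
  have := hZ i _ _ hi h1
  rw [QuotientGroup.out_eq', D.pt_co hi] at this
  exact he this

/-- the Borel structure of the quotient covering -/
local instance mZ : MeasurableSpace (D.cov (G ⧸ M)) := borel _

local instance bZ : BorelSpace (D.cov (G ⧸ M)) := ⟨rfl⟩

local instance cZ : Countable (D.atl (G ⧸ M)).ι :=
  have : Countable (G ⧸ M) := QuotientGroup.mk_surjective.countable
  inferInstanceAs (Countable (A.ι × (G ⧸ M)))

/-- the measure of the quotient covering -/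
def mu (D : MonD A G) (K : Kah A) (M : Subgroup G) : Measure (D.cov (G ⧸ M)) :=
  vm (volK (pullKah D (G ⧸ M) K))

/-- the integral of a density -/
def IM (D : MonD A G) (K : Kah A) (M : Subgroup G) (Φ : A.ι → G → Cn n → ℂ) : ℂ :=
  ∫ e, gl D K M Φ e ∂mu D K M

variable [T2Space X]

theorem Den.integrable (hd : Dat D M a) (h : Den D M a R Φ) :
    Integrable (gl D K M Φ) (mu D K M) := by
  obtain ⟨Z, hZ, h1⟩ := hd.exists_cpt R
  have : IsLocallyFiniteMeasure (mu D K M) := isLocallyFinite_vm _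
  exact (h.continuous_gl K).integrable_of_hasCompactSupport
    (HasCompactSupport.intro hZ fun e he => h.gl_off K h1 he)

theorem IM_congr (e : ∀ i v, ∀ z ∈ (A.e i).target, Ψ i v z = Φ i v z) :
    IM D K M Ψ = IM D K M Φ := by
  unfold IM gl
  simp only [e _ _ _ ((A.e _).map_source (ix_mem _))]

theorem IM_zero : IM D K M (fun _ _ _ => 0) = 0 := by simp [IM, gl]

theorem IM_smul (c : ℂ) : IM D K M (fun i v z => c * Φ i v z) = c * IM D K M Φ := by
  unfold IM gl
  simp only [mul_div_assoc]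
  exact integral_const_mul c _

theorem IM_add (hd : Dat D M a) (h : Den D M a R Φ) (h' : Den D M a R Ψ) :
    IM D K M (fun i v z => Φ i v z + Ψ i v z) = IM D K M Φ + IM D K M Ψ := by
  unfold IM
  rw [← integral_add (h.integrable K hd) (h'.integrable K hd)]
  simp only [gl, add_div]

theorem IM_sub (hd : Dat D M a) (h : Den D M a R Φ) (h' : Den D M a R Ψ) :
    IM D K M (fun i v z => Φ i v z - Ψ i v z) = IM D K M Φ - IM D K M Ψ := by
  unfold IM
  rw [← integral_sub (h.integrable K hd) (h'.integrable K hd)]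
  simp only [gl, sub_div]

theorem IM_sum (hd : Dat D M a) {κ : Type*} (s : Finset κ) {Φ : κ → A.ι → G → Cn n → ℂ}
    (h : ∀ k ∈ s, Den D M a R (Φ k)) :
    IM D K M (fun i v z => ∑ k ∈ s, Φ k i v z) = ∑ k ∈ s, IM D K M (Φ k) := by
  unfold IM
  rw [← integral_finsetSum s fun k hk => (h k hk).integrable K hd]
  simp only [gl, Finset.sum_div]

omit [T2Space X] in
theorem re_gl (Φ : A.ι → G → Cn n → ℂ) (e : D.cov (G ⧸ M)) : (gl D K M Φ e).re =
    (Φ (ix A (D.pr e)) (cd D e).out (A.e (ix A (D.pr e)) (D.pr e))).re /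
      (K.g (ix A (D.pr e)) (D.pr e)).det.re := by
  rw [gl, det_ofReal (K.pos _ _ (ix_mem _)), Complex.div_ofReal_re, Complex.ofReal_re]

omit [T2Space X] in
theorem norm_gl (Φ : A.ι → G → Cn n → ℂ) (e : D.cov (G ⧸ M)) : ‖gl D K M Φ e‖ =
    ‖Φ (ix A (D.pr e)) (cd D e).out (A.e (ix A (D.pr e)) (D.pr e))‖ /
      (K.g (ix A (D.pr e)) (D.pr e)).det.re := by
  rw [gl, det_ofReal (K.pos _ _ (ix_mem _)), norm_div, Complex.norm_real, Complex.ofReal_re,
    Real.norm_of_nonneg (det_re_pos (K.pos _ _ (ix_mem _))).le]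

theorem re_IM (hd : Dat D M a) (h : Den D M a R Φ) :
    (IM D K M Φ).re = ∫ e, (gl D K M Φ e).re ∂mu D K M :=
  (integral_re (h.integrable K hd)).symm

theorem re_IM_mono (hd : Dat D M a) (h : Den D M a R Φ) (h' : Den D M a R Ψ)
    (e : ∀ i v, ∀ z ∈ (A.e i).target, (Φ i v z).re ≤ (Ψ i v z).re) :
    (IM D K M Φ).re ≤ (IM D K M Ψ).re := by
  rw [re_IM K hd h, re_IM K hd h']
  refine integral_mono (h.integrable K hd).re (h'.integrable K hd).re fun y => ?_
  simp only [re_gl]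
  exact div_le_div_of_nonneg_right (e _ _ _ ((A.e _).map_source (ix_mem _)))
    (det_re_pos (K.pos _ _ (ix_mem _))).le

theorem re_IM_nonneg (hd : Dat D M a) (h : Den D M a R Φ)
    (e : ∀ i v, ∀ z ∈ (A.e i).target, 0 ≤ (Φ i v z).re) : 0 ≤ (IM D K M Φ).re := by
  have := re_IM_mono K hd Den.zero h e
  rwa [IM_zero] at this

theorem norm_IM_le (hd : Dat D M a) (h' : Den D M a R Ψ)
    (e : ∀ i v, ∀ z ∈ (A.e i).target, ‖Φ i v z‖ ≤ (Ψ i v z).re) :
    ‖IM D K M Φ‖ ≤ (IM D K M Ψ).re := by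
  rw [re_IM K hd h']
  refine norm_integral_le_of_norm_le (h'.integrable K hd).re (ae_of_all _ fun y => ?_)
  rw [norm_gl, re_gl]
  exact div_le_div_of_nonneg_right (e _ _ _ ((A.e _).map_source (ix_mem _)))
    (det_re_pos (K.pos _ _ (ix_mem _))).le

/-- dominated convergence -/
theorem tendsto_IM (hd : Dat D M a) {κ : Type*} {l : Filter κ} [l.IsCountablyGenerated]
    {Φ : κ → A.ι → G → Cn n → ℂ} {Φ₀ : A.ι → G → Cn n → ℂ} (h : ∀ᶠ k in l, Den D M a R (Φ k))
    (h' : Den D M a R Ψ)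
    (e : ∀ᶠ k in l, ∀ i v, ∀ z ∈ (A.e i).target, ‖Φ k i v z‖ ≤ (Ψ i v z).re)
    (ht : ∀ i v, ∀ z ∈ (A.e i).target, Tendsto (fun k => Φ k i v z) l (𝓝 (Φ₀ i v z))) :
    Tendsto (fun k => IM D K M (Φ k)) l (𝓝 (IM D K M Φ₀)) := by
  refine tendsto_integral_filter_of_dominated_convergence (fun y => (gl D K M Ψ y).re)
    (h.mono fun k hk => (hk.continuous_gl K).aestronglyMeasurable)
    (e.mono fun k hk => ae_of_all _ fun y => ?_) (h'.integrable K hd).re
    (ae_of_all _ fun y => ?_)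
  · rw [norm_gl, re_gl]
    exact div_le_div_of_nonneg_right (hk _ _ _ ((A.e _).map_source (ix_mem _)))
      (det_re_pos (K.pos _ _ (ix_mem _))).le
  · exact (ht _ _ _ ((A.e _).map_source (ix_mem _))).div_const _

theorem Den.int_sheet (h : Den D M a R Φ) (j : A.ι) (v : G) :
    ∫ e in D.sheet j (v : G ⧸ M), gl D K M Φ e ∂mu D K M = ∫ z in (A.e j).target, Φ j v z := by
  have h1 := setIntegral_chart (volK (pullKah D (G ⧸ M) K)) (j, (v : G ⧸ M))
    (h.continuous_gl K).aestronglyMeasurable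
  refine h1.trans (setIntegral_congr_fun (A.e j).open_target.measurableSet fun z hz => ?_)
  have hx := (A.e j).map_target hz
  change (K.g j ((A.e j).symm z)).det.re • gl D K M Φ (D.pt j (v : G ⧸ M) ((A.e j).symm z)) = _
  rw [h.gl_pt K v hx, (A.e j).right_inv hz, Complex.real_smul, ← det_ofReal (K.pos j _ hx),
    mul_div_cancel₀ _ (K.pos j _ hx).det_pos.ne']


/-- densities living on finitely many sheets over one chart -/
theorem IM_eq_sum (hd : Dat D M a) (h : Den D M a R Φ) (j : A.ι) (T : Finset (G ⧸ M))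
    (h0 : ∀ i v, ∀ x ∈ (A.e i).source, x ∉ (A.e j).source → Φ i v (A.e i x) = 0)
    (h1 : ∀ w ∉ T, ∀ z ∈ (A.e j).target, Φ j w.out z = 0) :
    IM D K M Φ = ∑ w ∈ T, ∫ z in (A.e j).target, Φ j w.out z := by
  have h2 : IM D K M Φ = ∫ e in ⋃ w ∈ T, D.sheet j w, gl D K M Φ e ∂mu D K M := by
    refine (setIntegral_eq_integral_of_forall_compl_eq_zero fun e he => ?_).symm
    by_cases hj : D.pr e ∈ (A.e j).source
    · rw [h.gl_sheet K (D.mem_sheet_co hj), h1 _ (fun hw => he (mem_biUnion hw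
        (D.mem_sheet_co hj))) _ ((A.e j).map_source hj), zero_div]
    · rw [gl, h0 _ _ _ (ix_mem _) hj, zero_div]
  rw [h2, integral_biUnion_finset T (fun w _ => (D.isOpen_sheet j w).measurableSet)
    (fun w _ w' _ hw => Set.disjoint_left.2 fun e h3 h4 => hw (h3.2.symm.trans h4.2))
    fun w _ => (h.integrable K hd).integrableOn]
  refine Finset.sum_congr rfl fun w _ => ?_
  rw [← h.int_sheet K, QuotientGroup.out_eq']

omit [T2Space X] in
/-- only finitely many sheets meet `‖a‖ ≤ R` -/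
theorem Dat.exists_fin (hd : Dat D M a) (R : ℝ) : ∃ T : Finset (G ⧸ M), ∀ j, ∀ w ∉ T,
    ∀ z ∈ (A.e j).target, R < ‖rd D a j w.out z‖ := by
  obtain ⟨Z, hZ, h1⟩ := hd.exists_cpt R
  refine ⟨(finite_co D hZ).toFinset, fun j w hw z hz => lt_of_not_ge fun h2 => hw ?_⟩
  have hx := (A.e j).map_target hz
  have h3 := h1 j _ _ hx h2
  rw [QuotientGroup.out_eq'] at h3
  exact (Set.Finite.mem_toFinset _).2 ⟨_, h3, j, D.pt_mem_sheet w hx⟩

end

end Crest.Agent.X261.Fam
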