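import Crest.Agent.X261.Fam.St
import Crest.Agent.T223.HmFrA_7

-- ▼ part X261/Fam/MolA
section

/-!
# Row 261, package FAM (helper65), part MolA: mollification of Banach valued maps

* `CS f` : smooth with compact support; `int_wd`;
* `rx hr x` : the kernel `y ↦ ρ (x - y)`; `mo_eq`, `contDiff_mo`, `wd_mo`;
* `weak` : the weak form of the tension; `J_wd`, `J_trH`;
* `l2_bound` : Young's inequality on compact sets.
-/

set_option autoImplicit false
set_option linter.unusedSectionVars false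

open Set Filter Topology MeasureTheory Matrix Metric
open scoped ComplexConjugate InnerProductSpace ContDiff NNReal ENNReal Convolution

namespace Crest.Agent.X261.Fam.Mol

open Crest.Agent.R275.Geo Crest.Agent.R275.EDR890 Crest.Agent.R273.Hess_333
open Crest.Agent.R271.H88 Crest.Agent.T223.Hm.Fr7

noncomputable section

variable {n : ℕ}

section W

variable {W : Type*} [NormedAddCommGroup W] [NormedSpace ℂ W] {f g : Cn n → W}

/-- smooth with compact support -/
structure CS (f : Cn n → W) : Prop where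
  sm : ContDiff ℝ ∞ f
  cs : HasCompactSupport f

theorem contDiff_wd (hf : ContDiff ℝ ∞ f) (s : WI n) : ContDiff ℝ ∞ (wd s f) :=
  contDiff_iff_contDiffAt.2 fun _ => contDiffAt_wd hf.contDiffAt s

theorem CS.wd (h : CS f) (s : WI n) : CS (wd s f) :=
  ⟨contDiff_wd h.sm s, (h.cs.fderiv ℝ).comp_left (g := wdL s) (wdL_zero s)⟩

theorem CS.int (h : CS f) : Integrable f := h.sm.continuous.integrable_of_hasCompactSupport h.cs

theorem CS.smul {c : Cn n → ℂ} (h : CS c) (hg : ContDiff ℝ ∞ g) : CS fun z => c z • g z :=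
  ⟨h.sm.smul hg, h.cs.smul_right⟩

theorem CS.int_smul {c : Cn n → ℂ} (h : CS c) (hg : Continuous g) :
    Integrable fun z => c z • g z :=
  (h.sm.continuous.smul hg).integrable_of_hasCompactSupport h.cs.smul_right

theorem dAt (hf : ContDiff ℝ ∞ f) (z : Cn n) : DifferentiableAt ℝ f z :=
  hf.differentiable (by simp) z

theorem int_wd (h : CS f) (s : WI n) : ∫ z, wd s f z = 0 := by
  have h1 : ∀ v : Cn n, Integrable fun z => fderiv ℝ f z v := fun v =>
    ((h.sm.continuous_fderiv (by simp)).clm_apply continuous_const).integrable_of_hasCompactSupport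
      (h.cs.fderiv_apply ℝ v)
  have h2 : ∀ v : Cn n, ∫ z, fderiv ℝ f z v = 0 := fun v => by
    have h3 := integral_bilinear_hasFDerivAt_right_eq_neg_left_of_integrable (μ := volume)
      (f := fun _ : Cn n => (1 : ℝ)) (f' := fun _ => 0) (g := f) (g' := fderiv ℝ f) (v := v)
      (B := ContinuousLinearMap.lsmul ℝ ℝ) (by simp) (by simpa using h1 v) (by simpa using h.int)
      (fun x _ => hasFDerivAt_const _ _) fun x _ => (dAt h.sm x).hasFDerivAt
    simpa using h3
  simp only [wd, wdL]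
  rw [integral_smul, integral_add (h1 _) ((h1 _).fun_smul _), integral_smul, h2, h2]
  simp

theorem norm_wdL_le (s : WI n) (G : Cn n →L[ℝ] W) : ‖wdL s G‖ ≤ ‖G‖ := by
  have h1 : ∀ c : ℂ, ‖c‖ = 1 → ‖G (EuclideanSpace.single s.2 c)‖ ≤ ‖G‖ := fun c hc => by
    simpa [hc] using G.le_opNorm (EuclideanSpace.single s.2 c)
  have h2 : ‖cI s.1‖ = 1 := by cases s.1 <;> simp
  have h3 := norm_add_le (G (EuclideanSpace.single s.2 1))
    (cI s.1 • G (EuclideanSpace.single s.2 Complex.I))
  rw [norm_smul, h2, one_mul] at h3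
  rw [wdL, norm_smul]
  have h4 : ‖(1 / 2 : ℂ)‖ = 1 / 2 := by simp
  rw [h4]
  linarith [h1 1 (by simp), h1 Complex.I (by simp)]

theorem wd_zero {z : Cn n} (hz : z ∉ tsupport f) (s : WI n) : wd s f z = 0 := by
  rw [wd_congr (notMem_tsupport_iff_eventuallyEq.1 hz)]
  exact wd_const 0 z s

/-! ### the mollifier -/

variable {r : ℝ} (hr : 0 < r)

/-- the kernel -/
def rx (x : Cn n) : Cn n → ℂ := cu fun y => rho volume hr (x - y)

theorem sm_rho (x : Cn n) : ContDiff ℝ ∞ fun y : Cn n => rho volume hr (x - y) :=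
  (rho_contDiff volume hr).comp (contDiff_const.sub contDiff_id)

theorem rx_ne {x y : Cn n} (h : rx hr x y ≠ 0) : ‖x - y‖ < r := by
  by_contra h1
  exact h (by simp [rx, cu, rho_zero volume hr (not_lt.1 h1)])

theorem tsupport_rx (x : Cn n) : tsupport (rx hr x) ⊆ closedBall x r :=
  closure_minimal (fun _ h => mem_closedBall'.2 (by rw [dist_eq_norm]; exact (rx_ne hr h).le))
    isClosed_closedBall

theorem cs_rx (x : Cn n) : CS (rx hr x) :=
  ⟨contDiff_iff_contDiffAt.2 fun _ => contDiffAt_cu (sm_rho hr x).contDiffAt,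
    (isCompact_closedBall x r).of_isClosed_subset (isClosed_tsupport _) (tsupport_rx hr x)⟩

theorem norm_rx (x y : Cn n) : ‖rx hr x y‖ = rho volume hr (x - y) := by
  simp [rx, cu, abs_of_nonneg (rho_nonneg volume hr _)]

theorem int_rho (x : Cn n) : ∫ y, rho volume hr (x - y) = 1 := by
  rw [integral_sub_left_eq_self (rho volume hr) volume x, rho_integral]

theorem norm_wd_rx (s : WI n) (x y : Cn n) :
    ‖wd s (rx hr x) y‖ ≤ ‖fderiv ℝ (rho volume hr) (x - y)‖ := by
  have h5 : HasFDerivAt (fun t : Cn n => x - t) (-(ContinuousLinearMap.id ℝ (Cn n))) y := by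
    simpa using (hasFDerivAt_id (𝕜 := ℝ) y).const_sub x
  have h6 := Complex.ofRealCLM.hasFDerivAt.comp y
    (((rho_contDiff volume hr).differentiable (by simp) (x - y)).hasFDerivAt.comp y h5)
  refine (norm_wdL_le s _).trans ?_
  rw [show fderiv ℝ (rx hr x) y = _ from h6.fderiv]
  refine ContinuousLinearMap.opNorm_le_bound _ (norm_nonneg _) fun v => ?_
  simpa using (fderiv ℝ (rho volume hr) (x - y)).le_opNorm v

theorem mo_eq (g : Cn n → W) (x : Cn n) : mo volume hr g x = ∫ y, rx hr x y • g y := by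
  unfold mo
  rw [convolution_eq_swap]
  exact integral_congr_ae (Eventually.of_forall fun y => (Complex.coe_smul _ _).symm)

theorem contDiff_mo (h : CS g) : ContDiff ℝ ∞ (mo volume hr g) :=
  h.cs.contDiff_convolution_right (n := ⊤) _ (rho_integrable volume hr).locallyIntegrable h.sm

theorem wd_mo [CompleteSpace W] (h : CS g) (s : WI n) (x : Cn n) :
    wd s (mo volume hr g) x = mo volume hr (wd s g) x := by
  have h1 := (h.cs.hasFDerivAt_convolution_right (ContinuousLinearMap.lsmul ℝ ℝ)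
    (rho_integrable volume hr).locallyIntegrable (h.sm.of_le (by simp)) x).fderiv
  have h2 : Integrable fun t => rho volume hr t • fderiv ℝ g (x - t) :=
    ((rho_contDiff volume hr).continuous.smul ((h.sm.continuous_fderiv (by simp)).comp
      (continuous_const.sub continuous_id))).integrable_of_hasCompactSupport
      (rho_cs volume hr).smul_right
  have h3 : fderiv ℝ (mo volume hr g) x = ∫ t, rho volume hr t • fderiv ℝ g (x - t) := by
    refine h1.trans (integral_congr_ae (Eventually.of_forall fun t => ?_))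
    ext e
    simp [ContinuousLinearMap.precompR_apply]
  rw [wd, h3, ← wdLc_apply, ← (wdLc s).integral_comp_comm h2]
  exact integral_congr_ae (Eventually.of_forall fun t => map_smul (wdLc s) _ _)

/-- the mollification only sees a neighbourhood -/
theorem norm_mo_le {K' : Set (Cn n)} (hK' : IsCompact K') {x : Cn n} (hx : closedBall x r ⊆ K')
    {F : Cn n → W} {k g : Cn n → ℝ} (hk : Continuous k) (hg : Continuous g)
    (h0 : ∀ y, r < ‖x - y‖ → F y = 0) (h : ∀ y, ‖x - y‖ ≤ r → ‖F y‖ ≤ k (x - y) * g y)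
    (hk0 : ∀ y, 0 ≤ k y) (hg0 : ∀ y, 0 ≤ g y) : ‖∫ y, F y‖ ≤ ∫ y in K', k (x - y) * g y := by
  rw [← setIntegral_eq_integral_of_forall_compl_eq_zero (s := K') fun y hy => h0 y (by
    by_contra h1
    exact hy (hx (mem_closedBall'.2 (by rw [dist_eq_norm]; exact not_lt.1 h1))))]
  refine norm_integral_le_of_norm_le (((hk.comp (continuous_const.sub continuous_id)).mul
    hg).continuousOn.integrableOn_compact hK') (Eventually.of_forall fun y => ?_)
  by_cases h1 : r < ‖x - y‖
  · rw [h0 y h1, norm_zero]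
    exact mul_nonneg (hk0 _) (hg0 _)
  · exact h y (not_lt.1 h1)

theorem norm_int_rx {x : Cn n} {c : ℝ} (h : ∀ y, ‖x - y‖ < r → ‖g y‖ ≤ c) :
    ‖∫ y, rx hr x y • g y‖ ≤ c := by
  have h1 : Integrable fun y => rho volume hr (x - y) * c :=
    ((rho_integrable volume hr).comp_sub_left x).mul_const c
  refine (norm_integral_le_of_norm_le h1 (Eventually.of_forall fun y => ?_)).trans_eq ?_
  · by_cases h2 : rx hr x y = 0
    · rw [← norm_rx, h2]
      simp
    · rw [norm_smul, norm_rx]
      exact mul_le_mul_of_nonneg_left (h y (rx_ne hr h2)) (rho_nonneg volume hr _)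
  · rw [integral_mul_const, int_rho, one_mul]

end W

/-! ### Young's inequality -/

theorem young {K K' : Set (Cn n)} (hK : IsCompact K) (hK' : IsCompact K') {k g : Cn n → ℝ}
    (hk : Continuous k) (hki : Integrable k) (hg : Continuous g) (hk0 : ∀ y, 0 ≤ k y)
    (hg0 : ∀ y, 0 ≤ g y) :
    ∫ x in K, (∫ y in K', k (x - y) * g y) ^ 2 ≤ (∫ y, k y) ^ 2 * ∫ y in K', g y ^ 2 := by
  have hc : Continuous fun x => ∫ y in K', k (x - y) * g y :=
    continuous_parametric_integral_of_continuous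
      ((hk.comp (continuous_fst.sub continuous_snd)).mul (hg.comp continuous_snd)) hK'
  have h1 := young_lintegral (volume : Measure (Cn n)) (k := fun y => ENNReal.ofReal (k y))
    (g := K'.indicator fun y => ENNReal.ofReal (g y)) hk.measurable.ennreal_ofReal
    (hg.measurable.ennreal_ofReal.indicator hK'.measurableSet).aemeasurable
  have h2 : ∀ x, ∫⁻ y, ENNReal.ofReal (k (x - y)) *
      K'.indicator (fun y => ENNReal.ofReal (g y)) y =
      ENNReal.ofReal (∫ y in K', k (x - y) * g y) := fun x => by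
    rw [ofReal_integral_eq_lintegral_ofReal ((by fun_prop : Continuous fun y =>
      k (x - y) * g y).continuousOn.integrableOn_compact hK') (Eventually.of_forall fun y =>
      mul_nonneg (hk0 _) (hg0 _)), ← lintegral_indicator hK'.measurableSet]
    refine lintegral_congr fun y => ?_
    by_cases hy : y ∈ K'
    · simp [hy, ENNReal.ofReal_mul (hk0 _)]
    · simp [hy]
  have h3 : ∫⁻ y, K'.indicator (fun y => ENNReal.ofReal (g y)) y ^ 2 =
      ENNReal.ofReal (∫ y in K', g y ^ 2) := by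
    rw [ofReal_integral_eq_lintegral_ofReal ((hg.fun_pow 2).continuousOn.integrableOn_compact hK')
      (Eventually.of_forall fun y => sq_nonneg _), ← lintegral_indicator hK'.measurableSet]
    refine lintegral_congr fun y => ?_
    by_cases hy : y ∈ K'
    · simp [hy, ENNReal.ofReal_pow (hg0 _)]
    · simp [hy]
  simp only [h2, h3] at h1
  rw [← ofReal_integral_eq_lintegral_ofReal hki (Eventually.of_forall hk0),
    ← ENNReal.ofReal_pow (integral_nonneg hk0), ← ENNReal.ofReal_mul (sq_nonneg _)] at h1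
  refine (ENNReal.ofReal_le_ofReal_iff (mul_nonneg (sq_nonneg _)
    (integral_nonneg fun _ => sq_nonneg _))).1 (le_trans ?_ h1)
  rw [ofReal_integral_eq_lintegral_ofReal ((hc.fun_pow 2).continuousOn.integrableOn_compact hK)
    (Eventually.of_forall fun y => sq_nonneg _)]
  refine (setLIntegral_le_lintegral _ _).trans_eq (lintegral_congr fun x => ?_)
  exact ENNReal.ofReal_pow (integral_nonneg fun y => mul_nonneg (hk0 _) (hg0 _)) 2

theorem l2_bound {K K' : Set (Cn n)} (hK : IsCompact K) (hK' : IsCompact K') (hKK : K ⊆ K')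
    {k g S : Cn n → ℝ} {m c : ℝ} (hk : Continuous k) (hki : Integrable k) (hg : Continuous g)
    (hk0 : ∀ y, 0 ≤ k y) (hg0 : ∀ y, 0 ≤ g y) (hm : 0 ≤ m) (hS : ∀ x, 0 ≤ S x)
    (h : ∀ x ∈ K, S x ≤ m * ((∫ y in K', k (x - y) * g y) + g x + c) ^ 2) :
    ∫ x in K, S x ≤ 3 * m * ((∫ y, k y) ^ 2 + 1) * (∫ y in K', g y ^ 2) +
      3 * m * volume.real K * c ^ 2 := by
  have hc : Continuous fun x => ∫ y in K', k (x - y) * g y :=
    continuous_parametric_integral_of_continuous
      ((hk.comp (continuous_fst.sub continuous_snd)).mul (hg.comp continuous_snd)) hK'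
  have i1 := (hc.fun_pow 2).continuousOn.integrableOn_compact (μ := volume) hK
  have i2 := (hg.fun_pow 2).continuousOn.integrableOn_compact (μ := volume) hK
  have i3 := (continuous_const (y := c ^ 2)).continuousOn.integrableOn_compact (μ := volume) hK
  have h1 : ∫ x in K, S x ≤
      ∫ x in K, 3 * m * ((∫ y in K', k (x - y) * g y) ^ 2 + g x ^ 2 + c ^ 2) := by
    refine integral_mono_of_nonneg (Eventually.of_forall hS) (((i1.add i2).add i3).const_mul _)
      ((ae_restrict_iff' hK.measurableSet).2 (Eventually.of_forall fun x hx => (h x hx).trans ?_))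
    have h2 : ∀ a b : ℝ, (a + b + c) ^ 2 ≤ 3 * (a ^ 2 + b ^ 2 + c ^ 2) := fun a b => by
      nlinarith [sq_nonneg (a - b), sq_nonneg (a - c), sq_nonneg (b - c)]
    exact (mul_le_mul_of_nonneg_left (h2 _ _) hm).trans_eq (by ring)
  rw [integral_const_mul, integral_add (Integrable.fun_add i1 i2) i3, integral_add i1 i2, setIntegral_const,
    smul_eq_mul] at h1
  have h3 := young hK hK' hk hki hg hk0 hg0
  have h4 : ∫ y in K, g y ^ 2 ≤ ∫ y in K', g y ^ 2 :=
    setIntegral_mono_set ((hg.pow 2).continuousOn.integrableOn_compact hK')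
      (Eventually.of_forall fun y => sq_nonneg _) hKK.eventuallyLE
  refine h1.trans ((mul_le_mul_of_nonneg_left (add_le_add (add_le_add h3 h4) le_rfl)
    (by positivity)).trans_eq (by ring))

/-! ### the tension -/

variable {H : Type*} [NormedAddCommGroup H] [InnerProductSpace ℂ H] {Q : Cn n → Mt n}
  {G : Cn n → H}

theorem sm_ac (hQ : ∀ a b, ContDiff ℝ ∞ fun z => Q z a b) (hG : ContDiff ℝ ∞ G) (r : Fin n) :
    ContDiff ℝ ∞ fun y => ac (Q y) (th G y) r :=
  ContDiff.sum fun p _ => (hQ r p).smul (contDiff_wd hG _)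

theorem sm_trH (hQ : ∀ a b, ContDiff ℝ ∞ fun z => Q z a b) (hG : ContDiff ℝ ∞ G) :
    ContDiff ℝ ∞ fun y => trH (Q y) (Am G y) :=
  ContDiff.sum fun p _ => (hQ p.2 p.1).smul (contDiff_wd (contDiff_wd hG _) _)

/-- the weak form of the tension -/
theorem weak (hQ : ∀ a b, ContDiff ℝ ∞ fun z => Q z a b) (hG : ContDiff ℝ ∞ G) {f : Cn n → ℂ}
    (hf : CS f) (hd : ∀ y, f y ≠ 0 → ∀ p, ∑ r, wd (true, r) (fun w => Q w r p) y = 0) :
    ∫ y, f y • trH (Q y) (Am G y) = -∫ y, ∑ r, wd (true, r) f y • ac (Q y) (th G y) r := by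
  have h1 : ∀ y, ∑ r, wd (true, r) (fun y => f y • ac (Q y) (th G y) r) y =
      f y • trH (Q y) (Am G y) + ∑ r, wd (true, r) f y • ac (Q y) (th G y) r := fun y => by
    have h2 : ∀ r, wd (true, r) (fun y => ac (Q y) (th G y) r) y =
        ∑ p, (wd (true, r) (fun w => Q w r p) y • th G y p + Q y r p • Am G y (p, r)) := fun r => by
      refine (wd_sum Finset.univ (f := fun p y => Q y r p • th G y p)
        (fun p _ => dAt ((hQ r p).smul (contDiff_wd hG _)) y) _).trans
        (Finset.sum_congr rfl fun p _ => ?_)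
      refine (wd_smul (dAt (hQ r p) y) (dAt (contDiff_wd hG (false, p)) y) _).trans ?_
      rw [wd_comm hG.contDiffAt]
      rfl
    simp only [wd_smul (dAt hf.sm y) (dAt (sm_ac hQ hG _) y), h2, Finset.sum_add_distrib]
    rw [add_comm, ← Finset.smul_sum, Finset.sum_add_distrib, Finset.sum_comm]
    congr 1
    by_cases h3 : f y = 0
    · simp [h3]
    · simp only [← Finset.sum_smul, hd y h3, zero_smul, Finset.sum_const_zero, zero_add]
      rw [trH, Fintype.sum_prod_type_right]
  have h4 : ∫ y, ∑ r, wd (true, r) (fun y => f y • ac (Q y) (th G y) r) y = 0 := by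
    rw [integral_finsetSum _ fun r _ => ((hf.smul (sm_ac hQ hG r)).wd _).int]
    exact Finset.sum_eq_zero fun r _ => int_wd (hf.smul (sm_ac hQ hG r)) _
  simp only [h1] at h4
  rw [integral_add (hf.int_smul (sm_trH hQ hG).continuous) (integrable_finsetSum _ fun r _ =>
    (hf.wd _).int_smul (sm_ac hQ hG r).continuous)] at h4
  exact eq_neg_of_add_eq_zero_left h4

theorem J_wd (cj : Cj H) {G' : Cn n → H} (hG : ContDiff ℝ ∞ G) (h : ∀ z, cj.J (G z) = G' z)
    (s : WI n) (z : Cn n) : cj.J (wd s G z) = wd (!s.1, s.2) G' z := by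
  have h1 : fderiv ℝ G' z = cj.J.comp (fderiv ℝ G z) := by
    rw [← show (cj.J ∘ G) = G' from funext h]
    exact (cj.J.hasFDerivAt.comp z (dAt hG z).hasFDerivAt).fderiv
  obtain ⟨b, a⟩ := s
  rw [wd, wd, h1]
  cases b <;> simp [wdL, cj.smul, map_ofNat (starRingEnd ℂ) 2]

theorem J_trH (cj : Cj H) (hG : ContDiff ℝ ∞ G) (h : ∀ z, cj.J (G z) = G z) {X : Mt n}
    (hX : X.IsHermitian) (z : Cn n) : cj.J (trH X (Am G z)) = trH X (Am G z) := by
  simp only [trH, map_sum, cj.smul, Am]
  refine Fintype.sum_equiv (Equiv.prodComm _ _) _ _ fun p => ?_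
  rw [J_wd cj (contDiff_wd hG _) (J_wd cj hG h _), wd_comm hG.contDiffAt]
  exact congrArg (· • _) (hX.apply p.1 p.2)

theorem norm_le_sqrt {ι : Type*} [Fintype ι] (θ : ι → H) (p : ι) : ‖θ p‖ ≤ √(sq θ) :=
  Real.le_sqrt_of_sq_le (Finset.single_le_sum (f := fun r => ‖θ r‖ ^ 2)
    (fun _ _ => sq_nonneg _) (Finset.mem_univ p))

theorem sq_le_of {θ : Fin n → H} {c : ℝ} (h : ∀ p, ‖θ p‖ ≤ c) : sq θ ≤ n * c ^ 2 := by
  refine (Finset.sum_le_card_nsmul _ _ (c ^ 2) fun p _ =>
    pow_le_pow_left₀ (norm_nonneg _) (h p) 2).trans_eq ?_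
  simp

theorem norm_ac_le {X : Mt n} {θ : Fin n → H} {a c : ℝ} (hX : ∀ r p, ‖X r p‖ ≤ a)
    (h : ∀ p, ‖θ p‖ ≤ c) (r : Fin n) : ‖ac X θ r‖ ≤ n * (a * c) := by
  refine (norm_sum_le _ _).trans ((Finset.sum_le_card_nsmul _ _ (a * c) fun p _ => ?_).trans_eq
    (by simp))
  rw [norm_smul]
  exact mul_le_mul (hX r p) (h p) (norm_nonneg _) ((norm_nonneg _).trans (hX r p))

theorem norm_trH_le {X : Mt n} {A : Fin n × Fin n → H} {a c : ℝ} (hX : ∀ r p, ‖X r p‖ ≤ a)
    (h : ∀ p, ‖A p‖ ≤ c) : ‖trH X A‖ ≤ n * n * (a * c) := by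
  refine (norm_sum_le _ _).trans ((Finset.sum_le_card_nsmul _ _ (a * c) fun p _ => ?_).trans_eq
    (by simp))
  rw [norm_smul]
  exact mul_le_mul (hX _ _) (h p) (norm_nonneg _) ((norm_nonneg _).trans (hX p.1 p.2))

end

end Crest.Agent.X261.Fam.Mol
end

-- ▼ part X261/Fam/Mol

/-!
# Row 261, package FAM (helper65), part Mol: Friedrichs' lemma for approximate minimisers

* `cmm` : the commutator; `split`, `norm_cmm_le`, `norm_cmm_sm`, `el_bound`;
* `mol_cs` : compactly supported data; `mol : MolStmt`.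
-/

set_option autoImplicit false
set_option linter.unusedSectionVars false

open Set Filter Topology MeasureTheory Matrix Metric
open scoped ComplexConjugate InnerProductSpace ContDiff NNReal ENNReal Convolution

namespace Crest.Agent.X261.Fam

open Crest.Agent.R275.Geo Crest.Agent.R275.EDR890 Crest.Agent.R273.Hess_333
open Crest.Agent.R271.H88 Crest.Agent.T223.Hm.Fr7

noncomputable section

namespace Mol

variable {n : ℕ} {H : Type*} [NormedAddCommGroup H] [InnerProductSpace ℂ H] [CompleteSpace H]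
  {Q : Cn n → Mt n} {G : Cn n → H} {θ θ' : Cn n → Fin n → H} {r : ℝ} (hr : 0 < r) {x : Cn n}
  {K K' : Set (Cn n)}

/-- the commutator -/
def cmm (Q : Cn n → Mt n) (θ : Cn n → Fin n → H) (x : Cn n) : H :=
  ∫ y, ∑ s, wd (true, s) (rx hr x) y • ac (Q x - Q y) (θ y) s

theorem cont_th (hG : ContDiff ℝ ∞ G) : Continuous (th G) :=
  continuous_pi fun _ => (contDiff_wd hG _).continuous

theorem cont_sqrt (h : Continuous θ) : Continuous fun y => √(sq (θ y)) := by
  unfold sq
  fun_prop

theorem trH_mo (hG : CS G) (X : Mt n) (x : Cn n) :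
    trH X (Am (mo volume hr G) x) = ∫ y, rx hr x y • trH X (Am G y) := by
  have h1 : ∀ p, Am (mo volume hr G) x p = ∫ y, rx hr x y • Am G y p := fun p => by
    rw [Am, funext (wd_mo hr hG (true, p.2)), wd_mo hr (hG.wd _), mo_eq]
    rfl
  simp only [trH, h1, Finset.smul_sum, ← integral_smul, smul_comm (rx hr x _)]
  exact (integral_finsetSum _ fun p _ => ((cs_rx hr x).int_smul
    ((hG.wd _).wd _).sm.continuous).fun_smul _).symm

theorem int_cmm (hQ : ∀ a b, Continuous fun z => Q z a b) (h : Continuous θ) (x : Cn n) :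
    Integrable fun y => ∑ s, wd (true, s) (rx hr x) y • ac (Q y) (θ y) s :=
  integrable_finsetSum _ fun s _ => ((cs_rx hr x).wd _).int_smul
    (continuous_finsetSum _ fun p _ => (hQ s p).smul ((continuous_apply p).comp h))

theorem split (hQ : ∀ a b, ContDiff ℝ ∞ fun z => Q z a b) (hG : CS G)
    (hd : ∀ y, ‖x - y‖ < r → ∀ p, ∑ r, wd (true, r) (fun w => Q w r p) y = 0) :
    trH (Q x) (Am (mo volume hr G) x) =
      (∫ y, rx hr x y • trH (Q y) (Am G y)) - cmm hr Q (th G) x := by
  rw [trH_mo hr hG, weak (Q := fun _ => Q x) (fun _ _ => contDiff_const) hG.sm (cs_rx hr x)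
    (fun y _ p => by simp [wd_const]), weak hQ hG.sm (cs_rx hr x) fun y hy => hd y (rx_ne hr hy)]
  simp only [cmm, sub_ac, Pi.sub_apply, smul_sub, Finset.sum_sub_distrib]
  rw [integral_sub (int_cmm hr (Q := fun _ => Q x) (fun _ _ => continuous_const) (cont_th hG.sm) x)
    (int_cmm hr (fun a b => (hQ a b).continuous) (cont_th hG.sm) x)]
  abel

theorem cmm_sub (hQ : ∀ a b, Continuous fun z => Q z a b) (h : Continuous θ)
    (h' : Continuous θ') (x : Cn n) :
    cmm hr Q (fun y => θ y - θ' y) x = cmm hr Q θ x - cmm hr Q θ' x := by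
  have h1 : ∀ a b, Continuous fun z => (Q x - Q z) a b := fun a b => continuous_const.sub (hQ a b)
  simp only [cmm, ac_sub, Pi.sub_apply, smul_sub, Finset.sum_sub_distrib]
  exact integral_sub (int_cmm hr h1 h x) (int_cmm hr h1 h' x)

/-- the kernel of the commutator -/
def kk (L : ℝ) (w : Cn n) : ℝ := n * n * L * (r * ‖fderiv ℝ (rho volume hr) w‖)

theorem cont_drho : Continuous (fderiv ℝ (rho (volume : Measure (Cn n)) hr)) :=
  (rho_contDiff volume hr).continuous_fderiv (by simp)

theorem cont_kk (L : ℝ) : Continuous (kk (n := n) hr L) :=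
  continuous_const.mul (continuous_const.mul (cont_drho hr).norm)

theorem int_kk (L : ℝ) : Integrable (kk (n := n) hr L) :=
  (((cont_drho hr).integrable_of_hasCompactSupport
    ((rho_cs volume hr).fderiv ℝ)).norm.const_mul r).const_mul _

theorem integral_kk (L : ℝ) : ∫ w, kk (n := n) hr L w =
    n * n * L * ∫ w, ‖fderiv ℝ (rho (volume : Measure (Cn n)) one_pos) w‖ := by
  rw [← integral_drho volume hr, ← integral_const_mul]
  rfl

theorem kk_nonneg {L : ℝ} (hL : 0 ≤ L) (w : Cn n) : 0 ≤ kk hr L w := by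
  unfold kk
  positivity

theorem norm_cmm_le {L : ℝ} (hL0 : 0 ≤ L) (hL : ∀ x y a b, ‖Q x a b - Q y a b‖ ≤ L * ‖x - y‖)
    (h : Continuous θ) (hK' : IsCompact K') (hx : closedBall x r ⊆ K') :
    ‖cmm hr Q θ x‖ ≤ ∫ y in K', kk hr L (x - y) * √(sq (θ y)) := by
  refine norm_mo_le hK' hx (cont_kk hr L) (cont_sqrt h) (fun y hy => ?_) (fun y hy => ?_)
    (kk_nonneg hr hL0) fun _ => Real.sqrt_nonneg _
  · refine Finset.sum_eq_zero fun s _ => ?_
    have h1 := norm_wd_rx hr (true, s) x y
    rw [drho_zero volume hr hy, norm_zero, norm_le_zero_iff] at h1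
    rw [h1, zero_smul]
  · refine (norm_sum_le _ _).trans ((Finset.sum_le_card_nsmul _ _
      (‖fderiv ℝ (rho volume hr) (x - y)‖ * (n * (L * r * √(sq (θ y))))) fun s _ => ?_).trans_eq ?_)
    · rw [norm_smul]
      exact mul_le_mul (norm_wd_rx hr _ x y) (norm_ac_le (fun a b => (hL x y a b).trans
        (mul_le_mul_of_nonneg_left hy hL0)) (norm_le_sqrt _) s) (norm_nonneg _) (norm_nonneg _)
    · simp only [kk, Finset.card_univ, Fintype.card_fin, nsmul_eq_mul]
      ring

theorem norm_cmm_sm {L M : ℝ} (hL0 : 0 ≤ L) (hL : ∀ x y a b, ‖Q x a b - Q y a b‖ ≤ L * ‖x - y‖)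
    (hQ : ∀ a b, ContDiff ℝ ∞ fun z => Q z a b) (hG : CS G) (hM : ∀ y p, ‖Am G y p‖ ≤ M)
    (hd : ∀ y, ‖x - y‖ < r → ∀ p, ∑ r, wd (true, r) (fun w => Q w r p) y = 0) :
    ‖cmm hr Q (th G) x‖ ≤ n * n * (L * r * M) := by
  have h1 := split hr hQ hG hd
  rw [trH_mo hr hG, eq_sub_iff_add_eq, ← eq_sub_iff_add_eq', ← integral_sub
    ((cs_rx hr x).int_smul (sm_trH hQ hG.sm).continuous) ((cs_rx hr x).int_smul
      (sm_trH (Q := fun _ => Q x) (fun _ _ => contDiff_const) hG.sm).continuous)] at h1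
  have h2 : ∀ y, trH (Q y) (Am G y) - trH (Q x) (Am G y) = trH (Q y - Q x) (Am G y) := fun y => by
    simp [trH, sub_smul, Finset.sum_sub_distrib]
  simp only [← smul_sub, h2] at h1
  rw [h1]
  exact norm_int_rx hr fun y hy => norm_trH_le (fun a b => (hL y x a b).trans
    (mul_le_mul_of_nonneg_left (by rw [norm_sub_rev]; exact hy.le) hL0)) (hM y)

theorem conj_rx (x y : Cn n) : conj (rx hr x y) = rx hr x y := Complex.conj_ofReal _

theorem el_bound (cj : Cj H) (hQ : ∀ a b, ContDiff ℝ ∞ fun z => Q z a b) (hG : ContDiff ℝ ∞ G)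
    (hJ : ∀ z, cj.J (G z) = G z) (hx : closedBall x r ⊆ K')
    (hH : ∀ y, ‖x - y‖ < r → (Q y).IsHermitian)
    (hd : ∀ y, ‖x - y‖ < r → ∀ p, ∑ r, wd (true, r) (fun w => Q w r p) y = 0) {δ : ℝ}
    (hδ : 0 ≤ δ) (el : ∀ u : Cn n → H, ContDiff ℝ ∞ u → tsupport u ⊆ K' →
      (∀ z, cj.J (u z) = u z) →
      |∫ z, (ip (Q z) (th u z) (th G z)).re| ≤ δ * √(∫ z, sq (th u z))) :
    ‖∫ y, rx hr x y • trH (Q y) (Am G y)‖ ≤
      δ * √(n * ∫ w, ‖fderiv ℝ (rho (volume : Measure (Cn n)) hr) w‖ ^ 2) := by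
  have hw := weak hQ hG (cs_rx hr x) fun y hy => hd y (rx_ne hr hy)
  set ξ := ∫ y, rx hr x y • trH (Q y) (Am G y) with hξ
  set c := n * ∫ w, ‖fderiv ℝ (rho (volume : Measure (Cn n)) hr) w‖ ^ 2 with hc
  have h1 : cj.J ξ = ξ := by
    rw [hξ, ← cj.J.integral_comp_comm ((cs_rx hr x).int_smul (sm_trH hQ hG).continuous)]
    refine integral_congr_ae (Eventually.of_forall fun y => ?_)
    by_cases hy : rx hr x y = 0
    · simp [hy]
    · simp only [cj.smul, conj_rx, J_trH cj hG hJ (hH y (rx_ne hr hy))]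
  have h2 : ∀ y b, th (fun y => rx hr x y • ξ) y b = wd (false, b) (rx hr x) y • ξ := fun y b => by
    rw [th, wd_smul (dAt (cs_rx hr x).sm y) (differentiableAt_const ξ), wd_const, smul_zero,
      add_zero]
  have h3 := el (fun y => rx hr x y • ξ) ((cs_rx hr x).sm.smul contDiff_const)
    ((tsupport_smul_subset_left _ _).trans ((tsupport_rx hr x).trans hx))
    fun z => by rw [cj.smul, conj_rx, h1]
  have h4 : ∀ y, ip (Q y) (th (fun y => rx hr x y • ξ) y) (th G y) =
      ⟪ξ, ∑ s, wd (true, s) (rx hr x) y • ac (Q y) (th G y) s⟫_ℂ := fun y => by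
    simp only [ip, dt, h2, inner_sum, inner_smul_left, inner_smul_right]
    refine Finset.sum_congr rfl fun s _ => ?_
    rw [rx, conj_wd_real _ ((sm_rho hr x).differentiable (by simp) y)]
    rfl
  have h5 := int_cmm hr (fun a b => (hQ a b).continuous) (cont_th hG) x
  have h6 : ∫ y, (ip (Q y) (th (fun y => rx hr x y • ξ) y) (th G y)).re = -‖ξ‖ ^ 2 := by
    simp only [h4]
    refine (integral_re (h5.const_inner (𝕜 := ℂ) ξ)).trans ?_
    rw [integral_inner h5, neg_eq_iff_eq_neg.1 hw.symm, inner_neg_right, inner_self_c]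
    simp [-Complex.ofReal_pow]
  have h7 : ∫ y, sq (th (fun y => rx hr x y • ξ) y) ≤ ‖ξ‖ ^ 2 * c := by
    have h8 : Integrable fun w => ‖fderiv ℝ (rho (volume : Measure (Cn n)) hr) w‖ ^ 2 :=
      ((cont_drho hr).norm.fun_pow 2).integrable_of_hasCompactSupport
        (((rho_cs volume hr).fderiv ℝ).comp_left (g := fun A => ‖A‖ ^ 2) (by simp))
    rw [hc, ← integral_sub_left_eq_self (fun w => ‖fderiv ℝ (rho volume hr) w‖ ^ 2) volume x,
      ← integral_const_mul, ← integral_const_mul]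
    refine integral_mono_of_nonneg (Eventually.of_forall fun y => sq_nonneg' _)
      (((h8.comp_sub_left x).const_mul _).const_mul _) (Eventually.of_forall fun y => ?_)
    refine (sq_le_of (c := ‖fderiv ℝ (rho volume hr) (x - y)‖ * ‖ξ‖) fun p => ?_).trans_eq
      (by ring)
    rw [h2, norm_smul]
    exact mul_le_mul_of_nonneg_right (norm_wd_rx hr _ x y) (norm_nonneg _)
  rw [h6, abs_neg, abs_of_nonneg (sq_nonneg _)] at h3
  have h9 := h3.trans (mul_le_mul_of_nonneg_left (Real.sqrt_le_sqrt h7) hδ)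
  rw [Real.sqrt_mul (sq_nonneg _), Real.sqrt_sq (norm_nonneg _)] at h9
  rcases (norm_nonneg ξ).eq_or_lt with h0 | h0
  · rw [← h0]
    positivity
  · exact le_of_mul_le_mul_left (by nlinarith) h0

theorem small {a b : ℝ} (ha : 0 ≤ a) (hb : 0 < b) : ∃ t, 0 < t ∧ ∀ s, s ≤ t → a * s ≤ b := by
  refine ⟨b / (a + 1), by positivity, fun s hs => (mul_le_mul_of_nonneg_left hs ha).trans ?_⟩
  rw [← mul_div_assoc, div_le_iff₀ (by positivity)]
  nlinarith

theorem exists_lip {W ι : Type*} [NormedAddCommGroup W] [NormedSpace ℂ W] [Finite ι]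
    {f : ι → Cn n → W} (h : ∀ i, CS (f i)) : ∃ L : ℝ, 0 ≤ L ∧
      (∀ i x y, ‖f i x - f i y‖ ≤ L * ‖x - y‖) ∧ ∀ i x, ‖f i x‖ ≤ L := by
  choose C hC using fun i => (h i).sm.lipschitzWith_of_hasCompactSupport (h i).cs (by simp)
  choose D hD using fun i => (h i).cs.exists_bound_of_continuous (h i).sm.continuous
  obtain ⟨A, hA⟩ := (Set.finite_range fun i => max (C i : ℝ) (D i)).bddAbove
  refine ⟨max A 0, le_max_right _ _, fun i x y => ((hC i).norm_sub_le x y).trans
    (mul_le_mul_of_nonneg_right ?_ (norm_nonneg _)), fun i x => (hD i x).trans ?_⟩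
  · exact (le_max_left _ _).trans ((hA ⟨i, rfl⟩).trans (le_max_left _ _))
  · exact (le_max_right _ _).trans ((hA ⟨i, rfl⟩).trans (le_max_left _ _))

/-- Friedrichs' lemma for compactly supported data -/
theorem mol_cs (cj : Cj H) {F : ℕ → Cn n → H} (hQ : ∀ a b, CS fun z => Q z a b)
    (hH : ∀ z ∈ K', (Q z).IsHermitian)
    (hd : ∀ z ∈ K', ∀ p, ∑ r, wd (true, r) (fun w => Q w r p) z = 0) (hK : IsCompact K)
    (hK' : IsCompact K') (hKK : K ⊆ interior K') (hF : ∀ i, CS (F i)) (h : Sq cj univ Q K' F)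
    {η : ℝ} (hη : 0 < η) : ∀ᶠ i in atTop, ∃ F' : Cn n → H, ContDiff ℝ ∞ F' ∧
      (∀ z, cj.J (F' z) = F' z) ∧ ∫ z in K, sq (th F' z - th (F i) z) ≤ η ∧
      ∫ z in K, ‖trH (Q z) (Am F' z)‖ ^ 2 ≤ η := by
  have hQ' := fun a b => (hQ a b).sm
  have hQc := fun a b => (hQ a b).sm.continuous
  obtain ⟨L, hL0, hL, -⟩ := exists_lip (f := fun (p : Fin n × Fin n) z => Q z p.1 p.2)
    fun p => hQ p.1 p.2
  replace hL : ∀ x y a b, ‖Q x a b - Q y a b‖ ≤ L * ‖x - y‖ := fun x y a b => hL (a, b) x y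
  set A := n * n * L * ∫ w, ‖fderiv ℝ (rho (volume : Measure (Cn n)) one_pos) w‖
  have hV : 0 ≤ volume.real K := measureReal_nonneg
  obtain ⟨e, he, he'⟩ := small (a := 3 * n * (1 ^ 2 + 1) + 3 * 1 * (A ^ 2 + 1)) (by positivity)
    (half_pos hη)
  obtain ⟨c2, hc2, hc'⟩ := small (a := 3 * n * volume.real K + 3 * 1 * volume.real K)
    (by positivity) (half_pos hη)
  set c := √c2
  have hc : 0 < c := Real.sqrt_pos.2 hc2
  have hcc : c ^ 2 = c2 := Real.sq_sqrt hc2.le
  obtain ⟨N, hN⟩ := h.cau e he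
  obtain ⟨M, hM0, hM, -⟩ := exists_lip (f := fun b => wd (false, b) (F N)) fun b => (hF N).wd _
  obtain ⟨M', hM0', -, hM'⟩ := exists_lip (f := fun (p : Fin n × Fin n) z => Am (F N) z p)
    fun p => ((hF N).wd _).wd _
  obtain ⟨r0, hr0, h0⟩ := hK.exists_cthickening_subset_open isOpen_interior hKK
  obtain ⟨r1, hr1, h1⟩ := small hM0 hc
  obtain ⟨r2, hr2, h2⟩ := small (a := n * n * (L * M')) (by positivity) (half_pos hc)
  set r := min r0 (min r1 r2)
  have hr : 0 < r := lt_min hr0 (lt_min hr1 hr2)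
  have hb : ∀ x ∈ K, closedBall x r ⊆ K' := fun x hx =>
    (closedBall_subset_closedBall (min_le_left _ _)).trans
      ((closedBall_subset_cthickening hx r0).trans (h0.trans interior_subset))
  have hb' : ∀ x ∈ K, ∀ y, ‖x - y‖ < r → y ∈ K' := fun x hx y hy =>
    hb x hx (mem_closedBall'.2 (by rw [dist_eq_norm]; exact hy.le))
  obtain ⟨δ, hδ, h3⟩ := small (a := √(n * ∫ w,
    ‖fderiv ℝ (rho (volume : Measure (Cn n)) hr) w‖ ^ 2)) (Real.sqrt_nonneg _) (half_pos hc)
  filter_upwards [h.el δ hδ, eventually_ge_atTop N] with i hel hi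
  have hθ : Continuous fun y => th (F i) y - th (F N) y :=
    (cont_th (hF i).sm).sub (cont_th (hF N).sm)
  have hg := cont_sqrt hθ
  have hg0 := fun y => Real.sqrt_nonneg (sq (th (F i) y - th (F N) y))
  have hI : ∫ y in K', √(sq (th (F i) y - th (F N) y)) ^ 2 ≤ e := by
    simp only [Real.sq_sqrt (sq_nonneg' _)]
    exact hN i hi N le_rfl
  have hI0 : 0 ≤ ∫ y in K', √(sq (th (F i) y - th (F N) y)) ^ 2 :=
    integral_nonneg fun _ => sq_nonneg _
  have e1 := he' _ hI
  have e2 := hc' _ hcc.le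
  refine ⟨mo volume hr (F i), contDiff_mo hr (hF i), fun z => ?_, ?_, ?_⟩
  · rw [mo_eq, ← cj.J.integral_comp_comm ((cs_rx hr z).int_smul (hF i).sm.continuous)]
    simp only [cj.smul, conj_rx, h.real i _ (mem_univ _)]
  · refine (l2_bound hK hK' (hKK.trans interior_subset) (c := c)
      (rho_contDiff volume hr).continuous (rho_integrable volume hr) hg (rho_nonneg volume hr) hg0
      n.cast_nonneg (fun _ => sq_nonneg' _) fun x hx => sq_le_of fun b => ?_).trans ?_
    · have h4 : (th (mo volume hr (F i)) x - th (F i) x) b =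
          (∫ y, rx hr x y • (th (F i) y - th (F N) y) b) - (th (F i) x - th (F N) x) b +
            ∫ y, rx hr x y • (th (F N) y b - th (F N) x b) := by
        have i1 : ∀ j, Integrable fun y => rx hr x y • th (F j) y b := fun j =>
          (cs_rx hr x).int_smul ((hF j).wd (false, b)).sm.continuous
        have i3 : th (mo volume hr (F i)) x b = ∫ y, rx hr x y • th (F i) y b :=
          (wd_mo hr (hF i) _ x).trans (mo_eq hr _ x)
        have i2 : ∫ y, rx hr x y • th (F N) x b = th (F N) x b := by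
          rw [integral_smul_const, show ∫ y, rx hr x y = ((∫ y, rho volume hr (x - y) : ℝ) : ℂ) from
            integral_ofReal, int_rho, Complex.ofReal_one, one_smul]
        simp only [Pi.sub_apply, smul_sub]
        rw [integral_sub (i1 i) (i1 N), integral_sub (i1 N)
          ((cs_rx hr x).int_smul continuous_const), i2, i3]
        abel
      rw [h4]
      refine norm_add_le_of_le (norm_sub_le_of_le ?_ (norm_le_sqrt _ b))
        (norm_int_rx hr fun y hy => (hM b y x).trans (h1 _ ?_))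
      · refine norm_mo_le hK' (hb x hx) (rho_contDiff volume hr).continuous hg (fun y hy => ?_)
          (fun y _ => ?_) (rho_nonneg volume hr) hg0
        · by_contra h5
          exact hy.not_gt (rx_ne hr (left_ne_zero_of_smul h5))
        · rw [norm_smul, norm_rx]
          exact mul_le_mul_of_nonneg_left (norm_le_sqrt _ b) (rho_nonneg volume hr _)
      · rw [norm_sub_rev]
        exact hy.le.trans ((min_le_right _ _).trans (min_le_left _ _))
    · rw [rho_integral]
      nlinarith [mul_nonneg (sq_nonneg A) hI0, mul_nonneg hV (sq_nonneg c)]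
  · refine (l2_bound hK hK' (hKK.trans interior_subset) (c := c) (m := 1) (cont_kk hr L)
      (int_kk hr L) hg (kk_nonneg hr hL0) hg0 zero_le_one (fun _ => sq_nonneg _)
      fun x hx => ?_).trans ?_
    · have hdx := fun y hy => hd y (hb' x hx y hy)
      have h4 := el_bound hr cj hQ' (hF i).sm (fun z => h.real i z (mem_univ _)) (hb x hx)
        (fun y hy => hH y (hb' x hx y hy)) hdx hδ.le hel
      have h5 := norm_cmm_le hr hL0 hL hθ hK' (hb x hx)
      have h6 := norm_cmm_sm hr hL0 hL hQ' (hF N) (fun y p => hM' p y) hdx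
      have h7 := h2 r ((min_le_right _ _).trans (min_le_right _ _))
      have h8 := h3 δ le_rfl
      rw [one_mul, split hr hQ' (hF i) hdx, ← sub_add_cancel (cmm hr Q (th (F i)) x)
        (cmm hr Q (th (F N)) x), ← cmm_sub hr hQc (cont_th (hF i).sm) (cont_th (hF N).sm)]
      refine pow_le_pow_left₀ (norm_nonneg _) ((norm_sub_le_of_le h4
        (norm_add_le_of_le h5 h6)).trans ?_) 2
      nlinarith [hg0 x]
    · rw [integral_kk]
      nlinarith [mul_nonneg (n.cast_nonneg (α := ℝ)) hI0,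
        mul_nonneg (n.cast_nonneg (α := ℝ)) (mul_nonneg hV (sq_nonneg c))]

theorem cs_cut {W : Type*} [NormedAddCommGroup W] [NormedSpace ℂ W] {U : Set (Cn n)}
    (hU : IsOpen U) {χ : Cn n → ℝ} (hχ : ContDiff ℝ ∞ χ) (hc : HasCompactSupport χ)
    (hs : tsupport χ ⊆ U) {f : Cn n → W} (hf : ContDiffOn ℝ ∞ f U) : CS fun z => χ z • f z := by
  refine ⟨contDiff_iff_contDiffAt.2 fun z => ?_, hc.smul_right⟩
  by_cases hz : z ∈ tsupport χ
  · exact hχ.contDiffAt.smul (hf.contDiffAt (hU.mem_nhds (hs hz)))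
  · refine (contDiffAt_const (c := 0)).congr_of_eventuallyEq ?_
    filter_upwards [notMem_tsupport_iff_eventuallyEq.1 hz] with w hw
    simp [hw]

end Mol

open Mol in
/-- **MOL** -/
theorem mol : MolStmt := by
  intro n H _ _ _ cj U Q K K' F hU hQ hH hd hK hK' hKK hKU h η hη
  obtain ⟨L, hL, h1, h2⟩ := exists_compact_between hK' hU hKU
  obtain ⟨χ, a1, a2, -⟩ := exists_contMDiffMap_one_nhds_of_subset_interior (n := ⊤)
    (modelWithCornersSelf ℝ (Cn n)) hK'.isClosed h1
  have hχ : ContDiff ℝ ∞ χ := χ.contMDiff.contDiff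
  have hs : tsupport χ ⊆ L := closure_minimal (fun z hz => by_contra fun h => hz (a2 z h))
    hL.isClosed
  have hc : HasCompactSupport χ := hL.of_isClosed_subset (isClosed_tsupport _) hs
  have h3 : ∀ {W : Type} [NormedAddCommGroup W] [NormedSpace ℂ W] (f : Cn n → W), ∀ z ∈ K',
      (fun z => χ z • f z) =ᶠ[𝓝 z] f := fun f z hz => by
    filter_upwards [a1.filter_mono (nhds_le_nhdsSet hz)] with w hw
    simp [hw]
  have h4 : ∀ i, ∀ z ∈ K', th (fun z => χ z • F i z) z = th (F i) z := fun i z hz =>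
    funext fun b => wd_congr (h3 _ z hz) _
  have h5 : ∀ z ∈ K', χ z • Q z = Q z := fun z hz => by
    rw [(a1.filter_mono (nhds_le_nhdsSet hz)).self_of_nhds, one_smul]
  have h6 := mol_cs cj (Q := fun z => χ z • Q z) (F := fun i z => χ z • F i z)
    (fun a b => cs_cut hU hχ hc (hs.trans h2) (hQ a b))
    (fun z hz => by rw [h5 z hz]; exact hH z (hKU hz))
    (fun z hz p => (Finset.sum_congr rfl fun r _ =>
      wd_congr (h3 (fun w => Q w r p) z hz) _).trans (hd z (hKU hz) p)) hK hK' hKK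
    (fun i => cs_cut hU hχ hc (hs.trans h2) (h.sm i))
    ⟨fun i => (cs_cut hU hχ hc (hs.trans h2) (h.sm i)).sm.contDiffOn, fun i z _ => by
      by_cases hz : z ∈ L
      · rw [map_smul, h.real i z (h2 hz)]
      · simp [a2 z hz], fun e he => by
      obtain ⟨N, hN⟩ := h.cau e he
      refine ⟨N, fun i hi j hj => (setIntegral_congr_fun hK'.measurableSet
        fun z hz => ?_).trans_le (hN i hi j hj)⟩
      simp only [h4 _ z hz], fun δ hδ => by
      filter_upwards [h.el δ hδ] with i hi u hu hu' hJ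
      refine le_of_eq_of_le (congrArg _ (integral_congr_ae (Eventually.of_forall fun z => ?_)))
        (hi u hu hu' hJ)
      by_cases hz : z ∈ K'
      · simp only [h4 _ z hz, h5 z hz]
      · simp [ip, dt, th, wd_zero fun h => hz (hu' h)]⟩ hη
  filter_upwards [h6] with i ⟨F', b1, b2, b3, b4⟩
  have hKK' := hKK.trans interior_subset
  refine ⟨F', b1, b2, (setIntegral_congr_fun hK.measurableSet fun z hz => ?_).trans_le b3,
    (setIntegral_congr_fun hK.measurableSet fun z hz => ?_).trans_le b4⟩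
  · simp only [h4 _ z (hKK' hz)]
  · simp only [h5 z (hKK' hz)]

end

end Crest.Agent.X261.Fam
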