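import Mathlib
import Crest.Agent.R273.GamR_155
import Crest.Agent.R273.HessB_333

-- ▼ part X261/Fam/Lin
section

/-!
# Row 261, package FAM (helper12), part Lin: matrices acting on Hilbert valued columns

* `ac N θ`, `dt B A`, `ip X B A`, `en X θ` : action, pairing, Hermitian forms;
* `Cj H` : a conjugation of the Hilbert space `H`;
* `gE G C ε = G + ε⁻¹ C Cᴴ`, `Qe`, `ee` : the energy density of the metric `gE`, times `ε ^ q`;
* `tau C`, `vI C`, `Q0`, `e0` : the top horizontal form, `θ ↦ θ ∧ τ`, the vertical energy density;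
* `Wm`, `W4`, `K4`, `trH` : the tensors of the Siu-Sampson identity;
* transformation laws.
-/

set_option autoImplicit false
set_option linter.unusedSectionVars false

open Matrix Finset
open scoped ComplexConjugate ComplexOrder MatrixOrder InnerProductSpace Kronecker

namespace Crest.Agent.X261.Fam

open Crest.Agent.R273.Fock_243 Crest.Agent.R273.GamR_155

noncomputable section

variable {H : Type*} [NormedAddCommGroup H] [InnerProductSpace ℂ H]

section gen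

variable {ι κ σ : Type*} [Fintype ι] [Fintype κ] [Fintype σ]

/-- a matrix acting on an `H`-valued column -/
def ac (N : Matrix ι κ ℂ) (θ : κ → H) : ι → H := fun k => ∑ p, N k p • θ p

/-- the pairing of two columns -/
def dt (B A : ι → H) : ℂ := ∑ r, ⟪B r, A r⟫_ℂ

/-- the sesquilinear form of a matrix -/
def ip (X : Matrix ι ι ℂ) (B A : ι → H) : ℂ := dt B (ac X A)

/-- the quadratic form of a matrix -/
def en (X : Matrix ι ι ℂ) (θ : ι → H) : ℝ := (ip X θ θ).re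

/-- sum of the squared norms -/
def sq (θ : ι → H) : ℝ := ∑ r, ‖θ r‖ ^ 2

theorem sq_nonneg' (θ : ι → H) : 0 ≤ sq θ := Finset.sum_nonneg fun _ _ => by positivity

theorem ac_mul (X : Matrix ι κ ℂ) (Y : Matrix κ σ ℂ) (θ : σ → H) :
    ac (X * Y) θ = ac X (ac Y θ) := by
  funext k
  simp only [ac, Matrix.mul_apply, Finset.sum_smul, Finset.smul_sum, smul_smul]
  exact Finset.sum_comm

theorem ac_one [DecidableEq ι] (θ : ι → H) : ac (1 : Matrix ι ι ℂ) θ = θ := by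
  funext k
  simp [ac, Matrix.one_apply, ite_smul]

theorem ac_diag [DecidableEq ι] (w : ι → ℂ) (θ : ι → H) (k : ι) :
    ac (diagonal w) θ k = w k • θ k := by
  simp [ac, Matrix.diagonal_apply, ite_smul]


theorem ac_sub (N : Matrix ι κ ℂ) (θ θ' : κ → H) : ac N (θ - θ') = ac N θ - ac N θ' := by
  funext k
  simp [ac, smul_sub, Finset.sum_sub_distrib]



theorem sub_ac (N N' : Matrix ι κ ℂ) (θ : κ → H) : ac (N - N') θ = ac N θ - ac N' θ := by
  funext k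
  simp [ac, sub_smul, Finset.sum_sub_distrib]



theorem dt_ac (N : Matrix ι κ ℂ) (B : ι → H) (A : κ → H) : dt B (ac N A) = dt (ac Nᴴ B) A := by
  simp only [dt, ac, inner_sum, sum_inner, inner_smul_left, inner_smul_right,
    Matrix.conjTranspose_apply, RCLike.star_def, Complex.conj_conj]
  exact Finset.sum_comm

theorem ip_conj (N : Matrix κ ι ℂ) (Y : Matrix κ κ ℂ) (B A : ι → H) :
    ip (Nᴴ * Y * N) B A = ip Y (ac N B) (ac N A) := by
  unfold ip
  rw [Matrix.mul_assoc, ac_mul, dt_ac, Matrix.conjTranspose_conjTranspose, ac_mul]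

theorem en_conj (N : Matrix κ ι ℂ) (Y : Matrix κ κ ℂ) (θ : ι → H) :
    en (Nᴴ * Y * N) θ = en Y (ac N θ) := by
  unfold en; rw [ip_conj]

theorem ip_eq (X : Matrix ι ι ℂ) (B A : ι → H) :
    ip X B A = ∑ r, ∑ p, X r p * ⟪B r, A p⟫_ℂ := by
  simp only [ip, dt, ac, inner_sum, inner_smul_right]

theorem ip_diag [DecidableEq ι] (w : ι → ℂ) (B A : ι → H) :
    ip (diagonal w) B A = ∑ k, w k * ⟪B k, A k⟫_ℂ := by
  simp only [ip, dt, ac_diag, inner_smul_right]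

theorem inner_self_c (x : H) : ⟪x, x⟫_ℂ = ((‖x‖ ^ 2 : ℝ) : ℂ) := by
  rw [inner_self_eq_norm_sq_to_K]; norm_cast

theorem ip_diag_self [DecidableEq ι] (w : ι → ℝ) (θ : ι → H) :
    ip (diagonal fun k => (w k : ℂ)) θ θ = ((∑ k, w k * ‖θ k‖ ^ 2 : ℝ) : ℂ) := by
  rw [ip_diag]
  simp only [inner_self_c]
  norm_cast

theorem en_diag [DecidableEq ι] (w : ι → ℝ) (θ : ι → H) :
    en (diagonal fun k => (w k : ℂ)) θ = ∑ k, w k * ‖θ k‖ ^ 2 := by
  unfold en; rw [ip_diag_self, Complex.ofReal_re]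

theorem dt_self (θ : ι → H) : dt θ θ = (sq θ : ℂ) := by
  simp only [dt, sq, inner_self_c]; norm_cast

theorem en_one [DecidableEq ι] (θ : ι → H) : en (1 : Matrix ι ι ℂ) θ = sq θ := by
  unfold en ip; rw [ac_one, dt_self, Complex.ofReal_re]

theorem en_gram [DecidableEq κ] (N : Matrix κ ι ℂ) (θ : ι → H) : en (Nᴴ * N) θ = sq (ac N θ) := by
  rw [← en_one, ← en_conj, Matrix.mul_one]

theorem ip_smul (c : ℂ) (X : Matrix ι ι ℂ) (B A : ι → H) : ip (c • X) B A = c * ip X B A := by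
  simp only [ip_eq, Matrix.smul_apply, smul_eq_mul, Finset.mul_sum, mul_assoc]

theorem ip_add (X Y : Matrix ι ι ℂ) (B A : ι → H) : ip (X + Y) B A = ip X B A + ip Y B A := by
  simp only [ip_eq, Matrix.add_apply, add_mul, Finset.sum_add_distrib]

theorem ip_sub (X Y : Matrix ι ι ℂ) (B A : ι → H) : ip (X - Y) B A = ip X B A - ip Y B A := by
  simp only [ip_eq, Matrix.sub_apply, sub_mul, Finset.sum_sub_distrib]

theorem ip_sum {τ : Type*} (s : Finset τ) (X : τ → Matrix ι ι ℂ) (B A : ι → H) :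
    ip (∑ t ∈ s, X t) B A = ∑ t ∈ s, ip (X t) B A := by
  classical
  induction s using Finset.induction_on with
  | empty => simp [ip_eq]
  | insert a s ha ih => rw [Finset.sum_insert ha, Finset.sum_insert ha, ip_add, ih]

theorem ip_add_left (X : Matrix ι ι ℂ) (B B' A : ι → H) :
    ip X (B + B') A = ip X B A + ip X B' A := by
  simp only [ip_eq, Pi.add_apply, inner_add_left, mul_add, Finset.sum_add_distrib]

theorem ip_add_right (X : Matrix ι ι ℂ) (B A A' : ι → H) :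
    ip X B (A + A') = ip X B A + ip X B A' := by
  simp only [ip_eq, Pi.add_apply, inner_add_right, mul_add, Finset.sum_add_distrib]

theorem ip_sub_left (X : Matrix ι ι ℂ) (B B' A : ι → H) :
    ip X (B - B') A = ip X B A - ip X B' A := by
  simp only [ip_eq, Pi.sub_apply, inner_sub_left, mul_sub, Finset.sum_sub_distrib]

theorem ip_sub_right (X : Matrix ι ι ℂ) (B A A' : ι → H) :
    ip X B (A - A') = ip X B A - ip X B A' := by
  simp only [ip_eq, Pi.sub_apply, inner_sub_right, mul_sub, Finset.sum_sub_distrib]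

theorem ip_smul_left (X : Matrix ι ι ℂ) (c : ℂ) (B A : ι → H) :
    ip X (c • B) A = conj c * ip X B A := by
  simp only [ip_eq, Pi.smul_apply, inner_smul_left, Finset.mul_sum]
  exact Finset.sum_congr rfl fun _ _ => Finset.sum_congr rfl fun _ _ => by ring

theorem ip_smul_right (X : Matrix ι ι ℂ) (c : ℂ) (B A : ι → H) :
    ip X B (c • A) = c * ip X B A := by
  simp only [ip_eq, Pi.smul_apply, inner_smul_right, Finset.mul_sum]
  exact Finset.sum_congr rfl fun _ _ => Finset.sum_congr rfl fun _ _ => by ring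

theorem conj_ip (X : Matrix ι ι ℂ) (B A : ι → H) : conj (ip X B A) = ip Xᴴ A B := by
  simp only [ip_eq, map_sum, map_mul, inner_conj_symm, Matrix.conjTranspose_apply, RCLike.star_def]
  exact Finset.sum_comm

theorem ip_iso {H' : Type*} [NormedAddCommGroup H'] [InnerProductSpace ℂ H'] (L : H →ₗᵢ[ℂ] H')
    (X : Matrix ι ι ℂ) (B A : ι → H) :
    ip X (fun p => L (B p)) (fun p => L (A p)) = ip X B A := by
  simp only [ip_eq, LinearIsometry.inner_map_map]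

theorem en_smul (c : ℝ) (X : Matrix ι ι ℂ) (θ : ι → H) : en ((c : ℂ) • X) θ = c * en X θ := by
  unfold en; rw [ip_smul, Complex.re_ofReal_mul]

theorem ip_real {X : Matrix ι ι ℂ} (hX : X.IsHermitian) (θ : ι → H) :
    ip X θ θ = (en X θ : ℂ) := by
  have h := conj_ip X θ θ
  rw [hX.eq] at h
  exact (Complex.conj_eq_iff_re.1 h).symm

theorem re_ip_comm {X : Matrix ι ι ℂ} (hX : X.IsHermitian) (B A : ι → H) :
    (ip X B A).re = (ip X A B).re := by
  have h := conj_ip X B A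
  rw [hX.eq] at h
  rw [← h, Complex.conj_re]

theorem en_nonneg [DecidableEq ι] {X : Matrix ι ι ℂ} (hX : X.PosSemidef) (θ : ι → H) :
    0 ≤ en X θ := by
  obtain ⟨B, rfl⟩ := CStarAlgebra.nonneg_iff_eq_star_mul_self.mp hX.nonneg
  rw [star_eq_conjTranspose, en_gram]
  exact sq_nonneg' _

theorem en_add_smul {X : Matrix ι ι ℂ} (hX : X.IsHermitian) (B A : ι → H) (t : ℝ) :
    en X (B + (t : ℂ) • A) = en X B + 2 * t * (ip X A B).re + t ^ 2 * en X A := by
  unfold en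
  rw [ip_add_left, ip_add_right, ip_add_right, ip_smul_left, ip_smul_right, ip_smul_left,
    ip_smul_right, Complex.conj_ofReal]
  simp only [Complex.add_re, Complex.re_ofReal_mul]
  rw [re_ip_comm hX B A]
  ring

theorem norm_dt_le (B A : ι → H) (t : ℝ) (ht : 0 < t) :
    ‖dt B A‖ ≤ t / 2 * sq B + 1 / (2 * t) * sq A := by
  unfold dt sq
  rw [Finset.mul_sum, Finset.mul_sum, ← Finset.sum_add_distrib]
  refine (norm_sum_le _ _).trans (Finset.sum_le_sum fun r _ => ?_)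
  refine (norm_inner_le_norm _ _).trans ?_
  have h : 0 ≤ (t * ‖B r‖ - ‖A r‖) ^ 2 / (2 * t) := by positivity
  have e : (t * ‖B r‖ - ‖A r‖) ^ 2 / (2 * t) =
      t / 2 * ‖B r‖ ^ 2 + 1 / (2 * t) * ‖A r‖ ^ 2 - ‖B r‖ * ‖A r‖ := by field_simp; ring
  linarith

/-- Cauchy-Schwarz for a positive matrix, in the additive form -/
theorem norm_ip_le [DecidableEq ι] {X : Matrix ι ι ℂ} (hX : X.PosSemidef) (B A : ι → H) (t : ℝ)
    (ht : 0 < t) : ‖ip X B A‖ ≤ t / 2 * en X B + 1 / (2 * t) * en X A := by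
  obtain ⟨R, rfl⟩ := CStarAlgebra.nonneg_iff_eq_star_mul_self.mp hX.nonneg
  rw [star_eq_conjTranspose, en_gram, en_gram]
  have : ip (Rᴴ * R) B A = dt (ac R B) (ac R A) := by
    unfold ip; rw [ac_mul, dt_ac, Matrix.conjTranspose_conjTranspose]
  rw [this]
  exact norm_dt_le _ _ t ht

theorem norm_ac_sq_le (N : Matrix ι κ ℂ) (θ : κ → H) (k : ι) :
    ‖ac N θ k‖ ^ 2 ≤ ((N * Nᴴ) k k).re * sq θ := by
  have h1 : ‖ac N θ k‖ ≤ ∑ p, ‖N k p‖ * ‖θ p‖ :=
    (norm_sum_le _ _).trans (le_of_eq (Finset.sum_congr rfl fun p _ => norm_smul _ _))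
  have h2 : ((N * Nᴴ) k k).re = ∑ p, ‖N k p‖ ^ 2 := by
    simp only [Matrix.mul_apply, Matrix.conjTranspose_apply, RCLike.star_def, Complex.mul_conj',
      Complex.re_sum]
    exact Finset.sum_congr rfl fun p _ => by norm_cast
  rw [h2]
  exact (pow_le_pow_left₀ (norm_nonneg _) h1 2).trans (Finset.sum_mul_sq_le_sq_mul_sq _ _ _)

/-- crude bound of a form by its entries -/
theorem norm_ip_le_ent {X : Matrix ι ι ℂ} {z : ℝ} (hz : ∀ r p, ‖X r p‖ ≤ z) (θ : ι → H) :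
    ‖ip X θ θ‖ ≤ z * Fintype.card ι * sq θ := by
  rw [ip_eq]
  have h1 : ‖∑ r, ∑ p, X r p * ⟪θ r, θ p⟫_ℂ‖ ≤ ∑ r, ∑ p, z * (‖θ r‖ ^ 2 / 2 + ‖θ p‖ ^ 2 / 2) := by
    refine (norm_sum_le _ _).trans (Finset.sum_le_sum fun r _ => ?_)
    refine (norm_sum_le _ _).trans (Finset.sum_le_sum fun p _ => ?_)
    rw [norm_mul]
    refine mul_le_mul (hz r p) ((norm_inner_le_norm _ _).trans ?_) (norm_nonneg _)
      ((norm_nonneg _).trans (hz r p))
    nlinarith [sq_nonneg (‖θ r‖ - ‖θ p‖)]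
  refine h1.trans (le_of_eq ?_)
  simp only [← Finset.mul_sum, Finset.sum_add_distrib, Finset.sum_const, Finset.card_univ,
    nsmul_eq_mul, sq, ← Finset.sum_div]
  ring

end gen

/-- a conjugation of a complex Hilbert space -/
structure Cj (H : Type*) [NormedAddCommGroup H] [InnerProductSpace ℂ H] where
  J : H →L[ℝ] H
  JJ : ∀ x, J (J x) = x
  smul : ∀ (c : ℂ) x, J (c • x) = conj c • J x
  inner : ∀ x y, ⟪J x, J y⟫_ℂ = ⟪y, x⟫_ℂ

theorem Cj.norm (c : Cj H) (x : H) : ‖c.J x‖ = ‖x‖ := by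
  have h := c.inner x x
  rw [inner_self_c, inner_self_c] at h
  have h2 : ‖c.J x‖ ^ 2 = ‖x‖ ^ 2 := by exact_mod_cast h
  exact (pow_left_inj₀ (norm_nonneg _) (norm_nonneg _) two_ne_zero).1 h2

theorem Cj.ac (c : Cj H) {ι κ : Type*} [Fintype κ] (N : Matrix ι κ ℂ) (θ : κ → H) (k : ι) :
    c.J (ac N θ k) = Fam.ac (N.map conj) (fun p => c.J (θ p)) k := by
  simp [Fam.ac, map_sum, c.smul]

/-! ### the tensors -/

variable {n q : ℕ}

/-- square matrices -/
abbrev Mt (n : ℕ) : Type := Matrix (Fin n) (Fin n) ℂ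

/-- rectangular matrices -/
abbrev Mr (n q : ℕ) : Type := Matrix (Fin n) (Fin q) ℂ

/-- the metric `G + ε⁻¹ C Cᴴ` -/
def gE (G : Mt n) (C : Mr n q) (ε : ℝ) : Mt n := G + ((ε⁻¹ : ℝ) : ℂ) • (C * Cᴴ)

/-- the matrix of the normalised energy density -/
def Qe (G : Mt n) (C : Mr n q) (ε : ℝ) : Mt n := ((ε ^ q : ℝ) : ℂ) • (gE G C ε).adjugate

/-- the normalised energy density -/
def ee (G : Mt n) (C : Mr n q) (ε : ℝ) (θ : Fin n → H) : ℝ := en (Qe G C ε) θ

/-- the wedge of the columns of `C` -/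
def tau (C : Mr n q) : FI n → ℂ := GamR C *ᵥ Pi.single Finset.univ 1

/-- the matrix of `θ ↦ θ ∧ τ` -/
def vI (C : Mr n q) : Matrix (FI n) (Fin n) ℂ := Matrix.of fun I a => (eW (ep a) *ᵥ tau C) I

/-- the matrix of the vertical energy density -/
def Q0 (G : Mt n) (C : Mr n q) : Mt n := G.det • ((vI C)ᴴ * Gam G⁻¹ * vI C)

/-- the vertical energy density -/
def e0 (G : Mt n) (C : Mr n q) (θ : Fin n → H) : ℝ := en (Q0 G C) θ

/-- `Y ↦ W(X, Y)` -/
def Wm (g X : Mt n) : Mt n := g.det • ((g⁻¹ * X).trace • g⁻¹ - g⁻¹ * X * g⁻¹)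

/-- the tensor of `ω^{n-2}` -/
def W4 (g : Mt n) : Matrix (Fin n × Fin n) (Fin n × Fin n) ℂ := Matrix.of fun r p =>
  g.det * (g⁻¹ p.2 p.1 * g⁻¹ r.1 r.2 - g⁻¹ r.1 p.1 * g⁻¹ p.2 r.2)

/-- the metric on `(1,1)`-tensors -/
def K4 (g : Mt n) : Matrix (Fin n × Fin n) (Fin n × Fin n) ℂ := g⁻¹ ⊗ₖ (g⁻¹)ᵀ

/-- the trace of a `(1,1)`-tensor against `X` -/
def trH (X : Mt n) (A : Fin n × Fin n → H) : H := ∑ p, X p.2 p.1 • A p

/-- the tensor `θ ⊗ conj y` -/
def tn (θ : Fin n → H) (y : Fin n → ℂ) : Fin n × Fin n → H := fun r => conj (y r.2) • θ r.1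

/-- action on `(1,1)`-tensors -/
def N2 (N : Mt n) : Matrix (Fin n × Fin n) (Fin n × Fin n) ℂ := N ⊗ₖ N.map conj

theorem ip_W4 {g : Mt n} (hg : g.IsHermitian) (B A : Fin n × Fin n → H) :
    ip (W4 g) B A = g.det * (⟪trH g⁻¹ B, trH g⁻¹ A⟫_ℂ - ip (K4 g) B A) := by
  have h1 : ∀ a b, conj (g⁻¹ a b) = g⁻¹ b a := fun a b => hg.inv.apply b a
  simp only [ip_eq, W4, K4, trH, Matrix.of_apply, kroneckerMap_apply, Matrix.transpose_apply,
    sum_inner, inner_sum, inner_smul_left, inner_smul_right, h1, ← Finset.sum_sub_distrib,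
    Finset.mul_sum]
  simp only [mul_sub, sub_mul, Finset.sum_sub_distrib]
  congr 1
  · rw [Finset.sum_comm]
    exact Finset.sum_congr rfl fun r _ => Finset.sum_congr rfl fun p _ => by ring
  · exact Finset.sum_congr rfl fun r _ => Finset.sum_congr rfl fun p _ => by ring

theorem Wm_apply (g X : Mt n) (d c : Fin n) :
    Wm g X d c = ∑ p : Fin n × Fin n, W4 g (d, c) p * X p.1 p.2 := by
  simp only [Wm, W4, Matrix.smul_apply, Matrix.sub_apply, Matrix.of_apply, smul_eq_mul,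
    Matrix.trace, Matrix.diag, Matrix.mul_apply, Fintype.sum_prod_type, Finset.sum_mul]
  rw [Finset.sum_comm, Finset.sum_comm (f := fun x y => g⁻¹ d y * X y x * g⁻¹ x c),
    ← Finset.sum_sub_distrib, Finset.mul_sum]
  refine Finset.sum_congr rfl fun a _ => ?_
  rw [← Finset.sum_sub_distrib, Finset.mul_sum]
  exact Finset.sum_congr rfl fun b _ => by ring

theorem Wm_add (g X Y : Mt n) : Wm g (X + Y) = Wm g X + Wm g Y := by
  ext d c
  simp only [Wm_apply, Matrix.add_apply, mul_add, Finset.sum_add_distrib]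

theorem Wm_zero (g : Mt n) : Wm g 0 = 0 := by
  ext d c
  simp [Wm_apply]

theorem Wm_sum {τ : Type*} (g : Mt n) (s : Finset τ) (X : τ → Mt n) :
    Wm g (∑ t ∈ s, X t) = ∑ t ∈ s, Wm g (X t) := by
  classical
  induction s using Finset.induction_on with
  | empty => simp [Wm_zero]
  | insert a s ha ih => rw [Finset.sum_insert ha, Finset.sum_insert ha, Wm_add, ih]

theorem ac_N2_tn (N : Mt n) (θ : Fin n → H) (y : Fin n → ℂ) :
    ac (N2 N) (tn θ y) = tn (ac N θ) (N *ᵥ y) := by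
  funext r
  simp only [ac, N2, tn, kroneckerMap_apply, Matrix.map_apply, Fintype.sum_prod_type, smul_smul,
    Matrix.mulVec, dotProduct, map_sum, map_mul, Finset.smul_sum, Finset.sum_mul, Finset.sum_smul]
  exact Finset.sum_congr rfl fun a _ => Finset.sum_congr rfl fun b _ => by congr 1; ring

theorem trH_conj (N Y : Mt n) (A : Fin n × Fin n → H) :
    trH (Nᴴ * Y * N) A = trH Y (ac (N2 N) A) := by
  simp only [trH, ac, N2, kroneckerMap_apply, Matrix.map_apply, Finset.smul_sum, smul_smul]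
  rw [Finset.sum_comm]
  refine Finset.sum_congr rfl fun p _ => ?_
  rw [← Finset.sum_smul]
  congr 1
  simp only [Matrix.mul_apply, Matrix.conjTranspose_apply, RCLike.star_def, Finset.sum_mul,
    Fintype.sum_prod_type]
  exact Finset.sum_congr rfl fun a _ => Finset.sum_congr rfl fun b _ => by ring

theorem trH_diag (w : Fin n → ℂ) (A : Fin n × Fin n → H) :
    trH (diagonal w) A = ∑ k, w k • A (k, k) := by
  simp only [trH, Fintype.sum_prod_type, Matrix.diagonal_apply, ite_smul, zero_smul]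
  refine Finset.sum_congr rfl fun a _ => ?_
  rw [Finset.sum_ite_eq' Finset.univ a]
  simp

theorem kron_conj (N Y : Mt n) :
    (Nᴴ * Y * N) ⊗ₖ (Nᴴ * Y * N)ᵀ = (N2 N)ᴴ * (Y ⊗ₖ Yᵀ) * N2 N := by
  unfold N2
  rw [Matrix.conjTranspose_kronecker, ← Matrix.mul_kronecker_mul, ← Matrix.mul_kronecker_mul]
  congr 1
  rw [Matrix.transpose_mul, Matrix.transpose_mul, ← Matrix.mul_assoc]
  congr 2
  ext a b
  simp

/-! ### transformation laws -/

theorem tau_mul (N : Mt n) (C : Mr n q) : tau (N * C) = Gam N *ᵥ tau C := by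
  unfold tau
  rw [GamR_mul, Matrix.mulVec_mulVec, GamR_eq_Gam]

theorem vI_mulVec (C : Mr n q) (y : Fin n → ℂ) : vI C *ᵥ y = eW y *ᵥ tau C := by
  funext I
  rw [eW_eq_sum y, Matrix.sum_mulVec]
  simp only [vI, Matrix.mulVec, dotProduct, Matrix.of_apply, Finset.sum_apply, Matrix.smul_apply,
    smul_eq_mul, Finset.sum_mul]
  exact Finset.sum_congr rfl fun a _ => Finset.sum_congr rfl fun b _ => by ring

theorem vI_mul (N : Mt n) (C : Mr n q) : vI (N * C) * N = Gam N * vI C := by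
  refine Matrix.ext_iff_mulVec.2 fun y => ?_
  rw [← Matrix.mulVec_mulVec, ← Matrix.mulVec_mulVec, vI_mulVec, vI_mulVec, tau_mul,
    Matrix.mulVec_mulVec, Matrix.mulVec_mulVec, Gam_eW]

theorem Gam_ct (N : Mt n) : (Gam N)ᴴ = Gam Nᴴ := by
  have h := Gam_map (starRingEnd ℂ) Nᵀ
  rw [← Gam_transpose] at h
  exact h

theorem GamR_ct (C : Mr n q) : (GamR C)ᴴ = GamR Cᴴ := by
  have h := GamR_map (starRingEnd ℂ) Cᵀ
  rw [← GamR_transpose] at h
  exact h

theorem Gam_univ (L : Mt q) :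
    Gam L *ᵥ Pi.single Finset.univ 1 = L.det • (Pi.single Finset.univ 1 : FI q → ℂ) := by
  funext S
  rw [Matrix.mulVec_single_one]
  by_cases hS : S = Finset.univ
  · subst hS
    have h : (Finset.univ : FI q).card = q := by simp
    have h2 : ((Finset.univ : FI q).orderEmbOfFin h : Fin q → Fin q) = id := by
      symm
      exact Finset.orderEmbOfFin_unique h (fun _ => Finset.mem_univ _) strictMono_id
    simp [Matrix.col, Gam_eq L h h, h2]
  · have h : S.card ≠ (Finset.univ : FI q).card := fun h => hS (Finset.eq_univ_of_card S (by simpa using h))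
    simp [Matrix.col, Gam_of_ne L h, hS]

theorem tau_mul_right (C : Mr n q) (L : Mt q) : tau (C * L) = L.det • tau C := by
  unfold tau
  rw [GamR_mul, ← Matrix.mulVec_mulVec, GamR_eq_Gam, Gam_univ, Matrix.mulVec_smul]

theorem vI_mul_right (C : Mr n q) (L : Mt q) : vI (C * L) = L.det • vI C := by
  ext I a
  simp [vI, tau_mul_right, Matrix.mulVec_smul]

theorem Q0_mul_right (G : Mt n) (C : Mr n q) (L : Mt q) :
    Q0 G (C * L) = ((‖L.det‖ ^ 2 : ℝ) : ℂ) • Q0 G C := by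
  unfold Q0
  rw [vI_mul_right, Matrix.conjTranspose_smul, Matrix.smul_mul, Matrix.smul_mul, Matrix.mul_smul,
    smul_smul, smul_smul, smul_smul]
  congr 1
  rw [Complex.ofReal_pow, ← Complex.conj_mul']
  simp only [RCLike.star_def]
  ring

/-- the columns of `C` are killed -/
theorem vI_mul_self (C : Mr n q) : vI C * C = 0 := by
  refine Matrix.ext_iff_mulVec.2 fun y => ?_
  rw [← Matrix.mulVec_mulVec, vI_mulVec, Matrix.zero_mulVec]
  unfold tau
  rw [Matrix.mulVec_mulVec, ← GamR_eW, ← Matrix.mulVec_mulVec]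
  have : eW y *ᵥ (Pi.single Finset.univ 1 : FI q → ℂ) = 0 := by
    funext S
    rw [Matrix.mulVec_single_one]
    simp only [Matrix.col, Matrix.transpose_apply, eW, Crest.Agent.R275.Kos798.K, Pi.zero_apply]
    refine Finset.sum_eq_zero fun j _ => ?_
    by_cases h : Crest.Agent.R275.Kos798.tog S j = Finset.univ
    · have hj : j ∉ S := (Crest.Agent.R275.Kos798.mem_tog_self S j).1 (h ▸ Finset.mem_univ j)
      simp [Crest.Agent.R275.Kos798.cf, hj]
    · simp [h]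
  rw [this, Matrix.mulVec_zero]

theorem det_conj (N G : Mt n) : (N * G * Nᴴ).det = ((‖N.det‖ ^ 2 : ℝ) : ℂ) * G.det := by
  rw [Matrix.det_mul, Matrix.det_mul, Matrix.det_conjTranspose, Complex.ofReal_pow,
    ← Complex.mul_conj']
  simp only [RCLike.star_def]
  ring

theorem inv_conj {N : Mt n} (hN : N.det ≠ 0) (G : Mt n) : Nᴴ * (N * G * Nᴴ)⁻¹ * N = G⁻¹ := by
  have h1 : IsUnit N.det := hN.isUnit
  have h2 : IsUnit Nᴴ.det := by rw [Matrix.det_conjTranspose]; exact h1.star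
  rw [Matrix.mul_inv_rev, Matrix.mul_inv_rev, ← Matrix.mul_assoc, Matrix.mul_nonsing_inv _ h2,
    Matrix.one_mul, Matrix.mul_assoc, Matrix.nonsing_inv_mul _ h1, Matrix.mul_one]

theorem gE_conj (N G : Mt n) (C : Mr n q) (ε : ℝ) :
    gE (N * G * Nᴴ) (N * C) ε = N * gE G C ε * Nᴴ := by
  unfold gE
  rw [Matrix.mul_add, Matrix.add_mul, Matrix.mul_smul, Matrix.smul_mul, Matrix.conjTranspose_mul]
  simp only [Matrix.mul_assoc]

theorem adj_conj (N g : Mt n) :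
    Nᴴ * (N * g * Nᴴ).adjugate * N = ((‖N.det‖ ^ 2 : ℝ) : ℂ) • g.adjugate := by
  rw [Matrix.adjugate_mul_distrib, Matrix.adjugate_mul_distrib, ← Matrix.mul_assoc,
    Matrix.mul_adjugate, Matrix.mul_assoc, Matrix.mul_assoc, Matrix.adjugate_mul,
    Matrix.det_conjTranspose, Matrix.smul_mul, Matrix.mul_smul, Matrix.mul_smul, Matrix.one_mul,
    Matrix.mul_one, smul_smul, Complex.ofReal_pow, ← Complex.conj_mul']
  rfl

theorem Qe_conj (N G : Mt n) (C : Mr n q) (ε : ℝ) :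
    Nᴴ * Qe (N * G * Nᴴ) (N * C) ε * N = ((‖N.det‖ ^ 2 : ℝ) : ℂ) • Qe G C ε := by
  unfold Qe
  rw [gE_conj, Matrix.mul_smul, Matrix.smul_mul, adj_conj, smul_comm]

theorem Q0_conj {N : Mt n} (hN : N.det ≠ 0) (G : Mt n) (C : Mr n q) :
    Nᴴ * Q0 (N * G * Nᴴ) (N * C) * N = ((‖N.det‖ ^ 2 : ℝ) : ℂ) • Q0 G C := by
  unfold Q0
  rw [Matrix.mul_smul, Matrix.smul_mul, det_conj, mul_smul]
  congr 2
  calc Nᴴ * ((vI (N * C))ᴴ * Gam (N * G * Nᴴ)⁻¹ * vI (N * C)) * N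
      = (vI (N * C) * N)ᴴ * Gam (N * G * Nᴴ)⁻¹ * (vI (N * C) * N) := by
        rw [Matrix.conjTranspose_mul]; simp only [Matrix.mul_assoc]
    _ = (vI C)ᴴ * (Gam Nᴴ * Gam (N * G * Nᴴ)⁻¹ * Gam N) * vI C := by
        rw [vI_mul, Matrix.conjTranspose_mul, Gam_ct]; simp only [Matrix.mul_assoc]
    _ = _ := by rw [← Gam_mul, ← Gam_mul, inv_conj hN]

theorem Wm_conj {N : Mt n} (hN : N.det ≠ 0) (g X : Mt n) :
    Nᴴ * Wm (N * g * Nᴴ) (N * X * Nᴴ) * N = ((‖N.det‖ ^ 2 : ℝ) : ℂ) • Wm g X := by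
  unfold Wm
  rw [Matrix.mul_smul, Matrix.smul_mul, det_conj, mul_smul]
  congr 2
  have h1 : ((N * g * Nᴴ)⁻¹ * (N * X * Nᴴ)).trace = (g⁻¹ * X).trace := by
    rw [← inv_conj hN g, ← Matrix.mul_assoc, Matrix.trace_mul_comm]
    simp only [Matrix.mul_assoc]
  rw [h1, Matrix.mul_sub, Matrix.sub_mul, Matrix.mul_smul, Matrix.smul_mul, inv_conj hN]
  congr 1
  conv_rhs => rw [← inv_conj hN g]
  simp only [Matrix.mul_assoc]

end

end Crest.Agent.X261.Fam
end

-- ▼ part X261/Fam/NF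
section

/-!
# Row 261, package FAM (helper12), part NF: normal form of a pair `(G, C)`
-/

set_option autoImplicit false
set_option linter.unusedSectionVars false

open Matrix Finset Filter Topology
open scoped ComplexConjugate ComplexOrder MatrixOrder InnerProductSpace Kronecker

namespace Crest.Agent.X261.Fam

open Crest.Agent.R273.Fock_243 Crest.Agent.R273.GamR_155

noncomputable section

variable {H : Type*} [NormedAddCommGroup H] [InnerProductSpace ℂ H] {n q : ℕ}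

/-! ### the determinant `det (ε + P)` -/

/-- `det (ε + P)` -/
def Dp (P : Mt q) (ε : ℝ) : ℝ := (((ε : ℂ) • (1 : Mt q) + P).det).re

theorem continuous_Dp (P : Mt q) : Continuous (Dp P) := by
  unfold Dp
  exact Complex.continuous_re.comp (Continuous.matrix_det (by fun_prop))

theorem exists_spec {P : Mt q} (hP : P.PosSemidef) : ∃ (U : Mt q) (ν : Fin q → ℝ), (∀ j, 0 ≤ ν j) ∧
    Uᴴ * U = 1 ∧ U * Uᴴ = 1 ∧ P = U * diagonal (fun j => (ν j : ℂ)) * Uᴴ := by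
  refine ⟨hP.1.eigenvectorUnitary, hP.1.eigenvalues, hP.eigenvalues_nonneg, ?_, ?_, ?_⟩
  · rw [← star_eq_conjTranspose]; exact Unitary.coe_star_mul_self _
  · rw [← star_eq_conjTranspose]; exact Unitary.coe_mul_star_self _
  · have h := hP.1.spectral_theorem
    rw [Unitary.conjStarAlgAut_apply] at h
    exact h

theorem prod_step {ν : Fin q → ℝ} (hν : ∀ j, 0 ≤ ν j) {ε : ℝ} (hε : 0 < ε) (j : Fin q) :
    (∏ i, ν i) * (ε / (ε + ν j)) ≤ ∏ i, (ε + ν i) - ∏ i, ν i := by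
  rw [← Finset.mul_prod_erase _ _ (Finset.mem_univ j),
    ← Finset.mul_prod_erase _ (fun i => ε + ν i) (Finset.mem_univ j)]
  have h0 : 0 ≤ ∏ i ∈ univ.erase j, ν i := Finset.prod_nonneg fun i _ => hν i
  have h1 : ∏ i ∈ univ.erase j, ν i ≤ ∏ i ∈ univ.erase j, (ε + ν i) :=
    Finset.prod_le_prod (fun i _ => hν i) fun i _ => by linarith
  have h2 : 0 < ε + ν j := by linarith [hν j]
  have h3 : ν j * (ε / (ε + ν j)) ≤ ε := by
    rw [mul_div_assoc', div_le_iff₀ h2]; nlinarith [hν j]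
  nlinarith [mul_le_mul_of_nonneg_left h3 h0, mul_le_mul_of_nonneg_left h1 h2.le]

/-- the facts on `det (ε + P)` and on the resolvent -/
theorem Dp_facts {P : Mt q} (hP : P.PosSemidef) :
    (∀ ε : ℝ, ((ε : ℂ) • (1 : Mt q) + P).det = (Dp P ε : ℂ)) ∧ 0 ≤ Dp P 0 ∧
    (∀ ε ε' : ℝ, 0 ≤ ε → ε ≤ ε' → Dp P ε ≤ Dp P ε') ∧ ∀ ε : ℝ, 0 < ε → 0 < Dp P ε ∧
      ∀ h k, ‖((ε : ℂ) • ((ε : ℂ) • (1 : Mt q) + P)⁻¹) h k‖ ≤ q ∧
        Dp P 0 * ‖((ε : ℂ) • ((ε : ℂ) • (1 : Mt q) + P)⁻¹) h k‖ ≤ q * (Dp P ε - Dp P 0) := by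
  obtain ⟨U, ν, hν, h1, h2, h3⟩ := exists_spec hP
  have e1 : ∀ ε : ℝ, (ε : ℂ) • (1 : Mt q) + P =
      U * diagonal (fun j => ((ε + ν j : ℝ) : ℂ)) * Uᴴ := fun ε => by
    have : diagonal (fun j => ((ε + ν j : ℝ) : ℂ)) =
        (ε : ℂ) • (1 : Mt q) + diagonal fun j => (ν j : ℂ) := by
      ext a b
      by_cases h : a = b <;> simp [h]
    rw [this, Matrix.mul_add, Matrix.add_mul, Matrix.mul_smul, Matrix.mul_one, Matrix.smul_mul, h2,
      ← h3]
  have e2 : ∀ ε : ℝ, ((ε : ℂ) • (1 : Mt q) + P).det = ((∏ j, (ε + ν j) : ℝ) : ℂ) := fun ε => by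
    rw [e1, Matrix.det_mul, Matrix.det_mul, mul_right_comm, ← Matrix.det_mul, h2, Matrix.det_one,
      one_mul, Matrix.det_diagonal]
    norm_cast
  have e3 : ∀ ε : ℝ, Dp P ε = ∏ j, (ε + ν j) := fun ε => by
    unfold Dp; rw [e2, Complex.ofReal_re]
  have hU : ∀ a j, ‖U a j‖ ≤ 1 := fun a j => by
    have h4 : ((U * Uᴴ) a a).re = ∑ p, ‖U a p‖ ^ 2 := by
      simp only [Matrix.mul_apply, Matrix.conjTranspose_apply, RCLike.star_def, Complex.mul_conj',
        Complex.re_sum]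
      exact Finset.sum_congr rfl fun p _ => by norm_cast
    rw [h2, Matrix.one_apply_eq, Complex.one_re] at h4
    have h5 : ‖U a j‖ ^ 2 ≤ ∑ p, ‖U a p‖ ^ 2 :=
      Finset.single_le_sum (f := fun p => ‖U a p‖ ^ 2) (fun _ _ => by positivity) (mem_univ j)
    nlinarith [norm_nonneg (U a j)]
  refine ⟨fun ε => by rw [e2, e3], ?_, fun ε ε' h0 h => ?_, fun ε hε => ⟨?_, fun h k => ?_⟩⟩
  · rw [e3]; exact Finset.prod_nonneg fun j _ => by linarith [hν j]
  · rw [e3, e3]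
    exact Finset.prod_le_prod (fun j _ => by linarith [hν j]) fun j _ => by linarith
  · rw [e3]; exact Finset.prod_pos fun j _ => by linarith [hν j]
  have hp : ∀ j, 0 < ε + ν j := fun j => by linarith [hν j]
  have e4 : ((ε : ℂ) • (1 : Mt q) + P)⁻¹ =
      U * diagonal (fun j => (((ε + ν j)⁻¹ : ℝ) : ℂ)) * Uᴴ := by
    apply Matrix.inv_eq_right_inv
    rw [e1]
    calc U * diagonal (fun j => ((ε + ν j : ℝ) : ℂ)) * Uᴴ *
          (U * diagonal (fun j => (((ε + ν j)⁻¹ : ℝ) : ℂ)) * Uᴴ)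
        = U * (diagonal (fun j => ((ε + ν j : ℝ) : ℂ)) * (Uᴴ * U) *
          diagonal (fun j => (((ε + ν j)⁻¹ : ℝ) : ℂ))) * Uᴴ := by simp only [Matrix.mul_assoc]
      _ = 1 := by
        rw [h1, Matrix.mul_one, Matrix.diagonal_mul_diagonal]
        have : (fun j => ((ε + ν j : ℝ) : ℂ) * (((ε + ν j)⁻¹ : ℝ) : ℂ)) = fun _ => 1 := by
          funext j
          rw [← Complex.ofReal_mul, mul_inv_cancel₀ (hp j).ne', Complex.ofReal_one]
        rw [this, Matrix.diagonal_one, Matrix.mul_one, h2]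
  have e5 : ‖((ε : ℂ) • ((ε : ℂ) • (1 : Mt q) + P)⁻¹) h k‖ ≤ ∑ j, ε / (ε + ν j) := by
    rw [e4, Matrix.smul_apply, Matrix.mul_apply, smul_eq_mul, Finset.mul_sum]
    refine (norm_sum_le _ _).trans (Finset.sum_le_sum fun j _ => ?_)
    rw [Matrix.mul_diagonal, Matrix.conjTranspose_apply, norm_mul, norm_mul, norm_mul, norm_star,
      Complex.norm_real, Complex.norm_real, Real.norm_of_nonneg hε.le,
      Real.norm_of_nonneg (inv_pos.2 (hp j)).le, div_eq_mul_inv]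
    have h6 := inv_pos.2 (hp j)
    refine mul_le_mul_of_nonneg_left ?_ hε.le
    calc ‖U h j‖ * (ε + ν j)⁻¹ * ‖U k j‖ ≤ 1 * (ε + ν j)⁻¹ * 1 := by
          gcongr <;> exact hU _ _
      _ = _ := by ring
  constructor
  · refine e5.trans ?_
    calc ∑ j, ε / (ε + ν j) ≤ ∑ _j : Fin q, (1 : ℝ) :=
          Finset.sum_le_sum fun j _ => (div_le_one (hp j)).2 (by linarith [hν j])
      _ = q := by simp
  · have h0 : 0 ≤ Dp P 0 := by rw [e3]; exact Finset.prod_nonneg fun j _ => by linarith [hν j]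
    refine (mul_le_mul_of_nonneg_left e5 h0).trans ?_
    rw [Finset.mul_sum, e3, e3]
    simp only [zero_add]
    calc ∑ j, (∏ i, ν i) * (ε / (ε + ν j)) ≤ ∑ _j : Fin q, (∏ i, (ε + ν i) - ∏ i, ν i) :=
          Finset.sum_le_sum fun j _ => prod_step hν hε j
      _ = _ := by simp [mul_sub]

/-! ### normal form -/

/-- the horizontal Gram matrix -/
def Hm (G : Mt n) (C : Mr n q) : Mt q := Cᴴ * G⁻¹ * C

theorem Hm_psd {G : Mt n} (hG : G.PosDef) (C : Mr n q) : (Hm G C).PosSemidef :=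
  hG.inv.posSemidef.conjTranspose_mul_mul_same C

/-- `det (ε + Cᴴ G⁻¹ C)` -/
def Dm (G : Mt n) (C : Mr n q) (ε : ℝ) : ℝ := Dp (Hm G C) ε

/-- simultaneous diagonalisation of `G` and `C Cᴴ` -/
structure NF (G : Mt n) (C : Mr n q) (N : Mt n) (μ : Fin n → ℝ) : Prop where
  one : N * G * Nᴴ = 1
  inv : Nᴴ * N = G⁻¹
  dg : N * C * (N * C)ᴴ = diagonal fun k => (μ k : ℂ)
  nn : ∀ k, 0 ≤ μ k

theorem exists_NF {G : Mt n} (hG : G.PosDef) (C : Mr n q) : ∃ N μ, NF G C N μ := by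
  have hgi : (G⁻¹).PosDef := hG.inv
  set S : Mt n := CFC.sqrt G⁻¹ with hS
  have hSS : S * S = G⁻¹ := CFC.sqrt_mul_sqrt_self _ hgi.posSemidef.nonneg
  have hSh : Sᴴ = S := (CFC.sqrt_nonneg G⁻¹).posSemidef.1
  have hu : IsUnit G.det := (isUnit_iff_isUnit_det G).1 hG.isUnit
  have hSgS : S * G * S = 1 := by
    have h1 : S * (S * G) = 1 := by rw [← mul_assoc, hSS, nonsing_inv_mul _ hu]
    exact mul_eq_one_comm.1 h1
  have hB : (S * C * (S * C)ᴴ).PosSemidef := posSemidef_self_mul_conjTranspose _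
  obtain ⟨U, ν, hν, h1, h2, h3⟩ := exists_spec hB
  refine ⟨Uᴴ * S, ν, ?_, ?_, ?_, hν⟩
  · rw [conjTranspose_mul, hSh, conjTranspose_conjTranspose]
    calc Uᴴ * S * G * (S * U) = Uᴴ * (S * G * S) * U := by simp only [mul_assoc]
      _ = 1 := by rw [hSgS, mul_one, h1]
  · rw [conjTranspose_mul, hSh, conjTranspose_conjTranspose]
    calc S * U * (Uᴴ * S) = S * (U * Uᴴ) * S := by simp only [mul_assoc]
      _ = G⁻¹ := by rw [h2, mul_one, hSS]
  · calc Uᴴ * S * C * (Uᴴ * S * C)ᴴ = Uᴴ * (S * C * (S * C)ᴴ) * U := by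
          simp only [conjTranspose_mul, conjTranspose_conjTranspose, Matrix.mul_assoc]
      _ = (Uᴴ * U) * diagonal (fun j => (ν j : ℂ)) * (Uᴴ * U) := by
          rw [h3]; simp only [Matrix.mul_assoc]
      _ = _ := by rw [h1, Matrix.one_mul, Matrix.mul_one]

theorem det_re_pos {G : Mt n} (hG : G.PosDef) : 0 < G.det.re := (Complex.pos_iff.1 hG.det_pos).1

theorem det_ofReal {G : Mt n} (hG : G.PosDef) : G.det = (G.det.re : ℂ) :=
  Complex.ext rfl (by simpa using (Complex.pos_iff.1 hG.det_pos).2.symm)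

theorem gE_posDef {G : Mt n} (hG : G.PosDef) (C : Mr n q) {ε : ℝ} (hε : 0 < ε) :
    (gE G C ε).PosDef :=
  hG.add_posSemidef ((posSemidef_self_mul_conjTranspose C).smul
    (Complex.zero_le_real.2 (inv_pos.2 hε).le))

theorem det_gE {G : Mt n} (hG : G.PosDef) (C : Mr n q) {ε : ℝ} (hε : 0 < ε) :
    ((ε ^ q : ℝ) : ℂ) * (gE G C ε).det = ((G.det.re * Dm G C ε : ℝ) : ℂ) := by
  have hu : IsUnit G.det := (isUnit_iff_isUnit_det G).1 hG.isUnit
  have h1 : gE G C ε = G * (1 + (((ε⁻¹ : ℝ) : ℂ) • (G⁻¹ * C)) * Cᴴ) := by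
    unfold gE
    rw [Matrix.mul_add, Matrix.mul_one, Matrix.smul_mul, Matrix.mul_smul, Matrix.mul_assoc,
      ← Matrix.mul_assoc G, Matrix.mul_nonsing_inv _ hu, Matrix.one_mul]
  have h2 : (ε : ℂ) • (1 + Cᴴ * (((ε⁻¹ : ℝ) : ℂ) • (G⁻¹ * C))) =
      (ε : ℂ) • (1 : Mt q) + Hm G C := by
    rw [smul_add, Matrix.mul_smul, smul_smul, ← Complex.ofReal_mul, mul_inv_cancel₀ hε.ne',
      Complex.ofReal_one, one_smul, Hm, Matrix.mul_assoc]
  have h3 := (Dp_facts (Hm_psd hG C)).1 ε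
  rw [← h2, Matrix.det_smul, Fintype.card_fin] at h3
  rw [h1, Matrix.det_mul, Matrix.det_one_add_mul_comm, Complex.ofReal_mul, ← det_ofReal hG, Dm,
    ← h3]
  push_cast
  ring

theorem adj_eq {g : Mt n} (hg : g.PosDef) : g.adjugate = g.det • g⁻¹ := by
  have hu : IsUnit g.det := (isUnit_iff_isUnit_det g).1 hg.isUnit
  rw [Matrix.nonsing_inv_apply _ hu, smul_smul]
  simp [mul_inv_cancel₀ hu.ne_zero]

theorem Qe_eq {G : Mt n} (hG : G.PosDef) (C : Mr n q) {ε : ℝ} (hε : 0 < ε) :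
    Qe G C ε = ((G.det.re * Dm G C ε : ℝ) : ℂ) • (gE G C ε)⁻¹ := by
  unfold Qe
  rw [adj_eq (gE_posDef hG C hε), smul_smul, det_gE hG C hε]

theorem Qe_posDef {G : Mt n} (hG : G.PosDef) (C : Mr n q) {ε : ℝ} (hε : 0 < ε) :
    (Qe G C ε).PosDef := by
  rw [Qe_eq hG C hε]
  exact (gE_posDef hG C hε).inv.smul (Complex.zero_lt_real.2
    (mul_pos (det_re_pos hG) ((Dp_facts (Hm_psd hG C)).2.2.2 ε hε).1))

theorem res_eq {G : Mt n} (hG : G.PosDef) (C : Mr n q) {ε : ℝ} (hε : 0 < ε) :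
    ((ε⁻¹ : ℝ) : ℂ) • (Cᴴ * (gE G C ε)⁻¹ * C) =
      1 - (ε : ℂ) • ((ε : ℂ) • (1 : Mt q) + Hm G C)⁻¹ := by
  have hu : IsUnit G.det := (isUnit_iff_isUnit_det G).1 hG.isUnit
  have hu' : IsUnit (gE G C ε).det :=
    (isUnit_iff_isUnit_det _).1 (gE_posDef hG C hε).isUnit
  have hD : IsUnit ((ε : ℂ) • (1 : Mt q) + Hm G C).det := by
    rw [(Dp_facts (Hm_psd hG C)).1]
    exact (Complex.ofReal_ne_zero.2 ((Dp_facts (Hm_psd hG C)).2.2.2 ε hε).1.ne').isUnit
  have hε' : (ε : ℂ) ≠ 0 := Complex.ofReal_ne_zero.2 hε.ne'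
  have h1 : G⁻¹ = (gE G C ε)⁻¹ + ((ε⁻¹ : ℝ) : ℂ) • ((gE G C ε)⁻¹ * (C * Cᴴ) * G⁻¹) := by
    calc G⁻¹ = (gE G C ε)⁻¹ * gE G C ε * G⁻¹ := by
          rw [Matrix.nonsing_inv_mul _ hu', Matrix.one_mul]
      _ = _ := by
          conv_lhs => enter [1, 2]; unfold gE
          rw [Matrix.mul_add, Matrix.add_mul, Matrix.mul_assoc _ G, Matrix.mul_nonsing_inv _ hu,
            Matrix.mul_one, Matrix.mul_smul, Matrix.smul_mul]
  have h2 : (((ε⁻¹ : ℝ) : ℂ) • (Cᴴ * (gE G C ε)⁻¹ * C)) * ((ε : ℂ) • (1 : Mt q) + Hm G C) =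
      Hm G C := by
    conv_rhs => rw [Hm, h1]
    rw [Matrix.mul_add, Matrix.mul_smul, Matrix.mul_one, smul_smul, ← Complex.ofReal_mul,
      mul_inv_cancel₀ hε.ne', Complex.ofReal_one, one_smul, Matrix.mul_add, Matrix.add_mul,
      Matrix.smul_mul, Matrix.mul_smul, Matrix.smul_mul, Hm]
    simp only [Matrix.mul_assoc]
  calc _ = (((ε⁻¹ : ℝ) : ℂ) • (Cᴴ * (gE G C ε)⁻¹ * C)) * ((ε : ℂ) • (1 : Mt q) + Hm G C) *
        ((ε : ℂ) • (1 : Mt q) + Hm G C)⁻¹ := by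
        rw [Matrix.mul_assoc _ _ (_ : Mt q)⁻¹, Matrix.mul_nonsing_inv _ hD, Matrix.mul_one]
    _ = ((ε : ℂ) • (1 : Mt q) + Hm G C - (ε : ℂ) • (1 : Mt q)) *
        ((ε : ℂ) • (1 : Mt q) + Hm G C)⁻¹ := by rw [h2, add_sub_cancel_left]
    _ = _ := by rw [Matrix.sub_mul, Matrix.mul_nonsing_inv _ hD, Matrix.smul_mul, Matrix.one_mul]

theorem eW_ct (v : Fin n → ℂ) : (eW v)ᴴ = iW (star v) := by
  rw [← eW_transpose]
  ext T S
  simp only [Matrix.conjTranspose_apply, Matrix.transpose_apply, eW, Crest.Agent.R275.Kos798.K,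
    star_sum]
  refine Finset.sum_congr rfl fun j _ => ?_
  split_ifs
  · simp only [Crest.Agent.R275.Kos798.sgn, Crest.Agent.R275.Kos798.cf, star_mul', star_pow,
      star_neg, star_one]
    split_ifs <;> simp
  · simp

theorem tau_sq (C : Mr n q) : star (tau C) ⬝ᵥ tau C = (Cᴴ * C).det := by
  unfold tau
  rw [Matrix.star_mulVec, ← Matrix.dotProduct_mulVec, Matrix.mulVec_mulVec, GamR_ct, ← GamR_mul,
    GamR_eq_Gam, Gam_univ]
  simp

/-- indicator of the vertical directions -/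
def vt (μ : Fin n → ℝ) (k : Fin n) : ℝ := if μ k = 0 then 1 else 0

/-- the eigenvalues of `(gE G C ε)⁻¹` -/
def wt (μ : Fin n → ℝ) (ε : ℝ) (k : Fin n) : ℝ := ε / (ε + μ k)

namespace NF

variable {G : Mt n} {C : Mr n q} {N : Mt n} {μ : Fin n → ℝ} (h : NF G C N μ)
include h

theorem det_ne : N.det ≠ 0 := fun h0 => by
  have := congrArg Matrix.det h.one
  rw [Matrix.det_mul, Matrix.det_mul, h0, Matrix.det_one] at this
  simp at this

theorem det_sq : ((‖N.det‖ ^ 2 : ℝ) : ℂ) * G.det = 1 := by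
  rw [← det_conj, h.one, Matrix.det_one]

theorem row_zero {k : Fin n} (hk : μ k = 0) (j : Fin q) : (N * C) k j = 0 := by
  have h1 := congrFun (congrFun h.dg k) k
  rw [Matrix.diagonal_apply_eq, hk, Matrix.mul_apply] at h1
  simp only [Matrix.conjTranspose_apply, RCLike.star_def, Complex.mul_conj'] at h1
  have h2 : ∑ p, ‖(N * C) k p‖ ^ 2 = 0 := by exact_mod_cast h1
  have h3 := (Finset.sum_eq_zero_iff_of_nonneg fun _ _ => by positivity).1 h2 j (mem_univ j)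
  simpa using h3

theorem gram : (N * C)ᴴ * (N * C) = Hm G C := by
  rw [Matrix.conjTranspose_mul, Hm, ← h.inv]; simp only [Matrix.mul_assoc]

theorem wt_pos {ε : ℝ} (hε : 0 < ε) (k : Fin n) : 0 < wt μ ε k :=
  div_pos hε (by linarith [h.nn k])


theorem vt_le {ε : ℝ} (hε : 0 < ε) (k : Fin n) : vt μ k ≤ wt μ ε k := by
  unfold vt
  split_ifs with hk
  · unfold wt; rw [hk, add_zero, div_self hε.ne']
  · exact (h.wt_pos hε k).le

theorem wt_mu {ε : ℝ} (hε : 0 < ε) (k : Fin n) : wt μ ε k * μ k ≤ ε := by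
  unfold wt
  rw [div_mul_eq_mul_div, div_le_iff₀ (by linarith [h.nn k])]
  nlinarith [h.nn k]

theorem ginv {ε : ℝ} (hε : 0 < ε) :
    (gE G C ε)⁻¹ = Nᴴ * diagonal (fun k => (wt μ ε k : ℂ)) * N := by
  have h1 : N * gE G C ε * Nᴴ = diagonal fun k => (((wt μ ε k)⁻¹ : ℝ) : ℂ) := by
    rw [← gE_conj, h.one, gE, h.dg]
    ext a b
    by_cases hab : a = b
    · subst hab
      simp only [Matrix.add_apply, Matrix.one_apply_eq, Matrix.smul_apply, Matrix.diagonal_apply_eq,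
        smul_eq_mul, wt]
      norm_cast
      field_simp
    · simp [hab]
  rw [← inv_conj h.det_ne, h1]
  congr 2
  apply Matrix.inv_eq_right_inv
  rw [Matrix.diagonal_mul_diagonal, ← Matrix.diagonal_one]
  congr 1
  funext k
  rw [← Complex.ofReal_mul, inv_mul_cancel₀ (h.wt_pos hε k).ne', Complex.ofReal_one]

theorem en_ginv {ε : ℝ} (hε : 0 < ε) (θ : Fin n → H) :
    en (gE G C ε)⁻¹ θ = ∑ k, wt μ ε k * ‖ac N θ k‖ ^ 2 := by
  rw [h.ginv hε, en_conj, en_diag]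

theorem ee_eq (hG : G.PosDef) {ε : ℝ} (hε : 0 < ε) (θ : Fin n → H) :
    ee G C ε θ = G.det.re * Dm G C ε * ∑ k, wt μ ε k * ‖ac N θ k‖ ^ 2 := by
  rw [ee, Qe_eq hG C hε, en_smul, h.en_ginv hε]

theorem Q0_one (hG : G.PosDef) :
    Q0 1 (N * C) = (Dm G C 0 : ℂ) • diagonal fun k => (vt μ k : ℂ) := by
  have e1 : Q0 1 (N * C) = (vI (N * C))ᴴ * vI (N * C) := by
    rw [Q0, Matrix.det_one, one_smul, inv_one, Gam_one, Matrix.mul_one]
  have e2 : star (tau (N * C)) ⬝ᵥ tau (N * C) = (Dm G C 0 : ℂ) := by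
    rw [tau_sq, h.gram, Dm, ← (Dp_facts (Hm_psd hG C)).1 0]
    simp
  rw [e1]
  ext l k
  by_cases hk : μ k = 0
  · have h1 : iW (ep k) *ᵥ tau (N * C) = 0 := by
      unfold tau
      rw [Matrix.mulVec_mulVec, iW_GamR]
      have : (N * C)ᵀ *ᵥ (ep k : Fin n → ℂ) = 0 := by
        funext j
        rw [Matrix.mulVec_single_one]
        exact h.row_zero hk j
      rw [this, show iW (0 : Fin q → ℂ) = 0 by simp, Matrix.mul_zero, Matrix.zero_mulVec]
    have h2 : ((vI (N * C))ᴴ * vI (N * C)) k l =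
        star (eW (ep k) *ᵥ tau (N * C)) ⬝ᵥ (eW (ep l) *ᵥ tau (N * C)) := rfl
    have h3 : star (ep k : Fin n → ℂ) = ep k := by
      funext j; by_cases hj : j = k <;> simp [hj]
    rw [Matrix.star_mulVec, ← Matrix.dotProduct_mulVec, Matrix.mulVec_mulVec, eW_ct, h3,
      eq_sub_of_add_eq (iW_eW (R := ℂ) (ep k) (ep l)), Matrix.sub_mulVec, ← Matrix.mulVec_mulVec, h1,
      Matrix.mulVec_zero, sub_zero, Matrix.smul_mulVec, Matrix.one_mulVec, dotProduct_smul,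
      e2] at h2
    have h4 := (isHermitian_conjTranspose_mul_self (vI (N * C))).apply l k
    rw [← h4, h2]
    by_cases hl : l = k
    · subst hl
      simp [vt, hk, Pi.single_apply]
    · simp [hl, Pi.single_apply, Ne.symm hl]
  · have h1 : (vI (N * C))ᴴ * vI (N * C) * (N * C * (N * C)ᴴ) = 0 := by
      rw [← Matrix.mul_assoc, Matrix.mul_assoc _ (vI _), vI_mul_self, Matrix.mul_zero,
        Matrix.zero_mul]
    rw [h.dg] at h1
    have h2 := congrFun (congrFun h1 l) k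
    rw [Matrix.mul_diagonal, Matrix.zero_apply, mul_eq_zero] at h2
    rw [h2.resolve_right (Complex.ofReal_ne_zero.2 hk)]
    by_cases hl : l = k
    · subst hl
      simp [vt, hk]
    · simp [hl]

theorem Q0_eq (hG : G.PosDef) : Q0 G C = ((G.det.re * Dm G C 0 : ℝ) : ℂ) •
    (Nᴴ * diagonal (fun k => (vt μ k : ℂ)) * N) := by
  have h1 := Q0_conj h.det_ne G C
  rw [h.one, h.Q0_one hG, Matrix.mul_smul, Matrix.smul_mul] at h1
  rw [Complex.ofReal_mul, ← det_ofReal hG, mul_smul, h1, smul_smul, mul_comm, h.det_sq, one_smul]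

theorem e0_eq (hG : G.PosDef) (θ : Fin n → H) :
    e0 G C θ = G.det.re * Dm G C 0 * ∑ k, vt μ k * ‖ac N θ k‖ ^ 2 := by
  rw [e0, h.Q0_eq hG, en_smul, en_conj, en_diag]

theorem K4_eq {ε : ℝ} (hε : 0 < ε) : K4 (gE G C ε) = (N2 N)ᴴ *
    diagonal (fun p : Fin n × Fin n => ((wt μ ε p.1 * wt μ ε p.2 : ℝ) : ℂ)) * N2 N := by
  rw [K4, h.ginv hε, kron_conj, Matrix.diagonal_transpose, Matrix.diagonal_kronecker_diagonal]
  congr 3
  funext p
  push_cast
  rfl

theorem trH_eq {ε : ℝ} (hε : 0 < ε) (A : Fin n × Fin n → H) :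
    trH (gE G C ε)⁻¹ A = ∑ k, (wt μ ε k : ℂ) • ac (N2 N) A (k, k) := by
  rw [h.ginv hε, trH_conj, trH_diag]

theorem mu_le (k : Fin n) : μ k ≤ (Hm G C).trace.re := by
  rw [← h.gram, Matrix.trace_mul_comm, h.dg, Matrix.trace_diagonal, Complex.re_sum]
  simp only [Complex.ofReal_re]
  exact Finset.single_le_sum (fun j _ => h.nn j) (mem_univ k)

theorem inv_mul_ct : N⁻¹ * (N⁻¹)ᴴ = G := by
  have h1 : IsUnit N.det := h.det_ne.isUnit
  have h2 : IsUnit Nᴴ.det := by rw [Matrix.det_conjTranspose]; exact h1.star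
  calc N⁻¹ * (N⁻¹)ᴴ = N⁻¹ * (N * G * Nᴴ) * (Nᴴ)⁻¹ := by
        rw [h.one, Matrix.mul_one, Matrix.conjTranspose_nonsing_inv]
    _ = G := by
        rw [Matrix.mul_assoc, Matrix.mul_assoc, Matrix.mul_nonsing_inv _ h2, Matrix.mul_one,
          ← Matrix.mul_assoc, Matrix.nonsing_inv_mul _ h1, Matrix.one_mul]

/-- the key bound `Cᴴ g⁻¹ C ≤ ε` -/
theorem hor_vec {ε : ℝ} (hε : 0 < ε) {c : Fin q → ℂ} (hc : ∑ j, ‖c j‖ ^ 2 ≤ 1) :
    ∑ k, wt μ ε k * ‖((N * C) *ᵥ c) k‖ ^ 2 ≤ ε := by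
  set y := (N * C) *ᵥ c with hy
  set z : Fin n → ℂ := fun k => (wt μ ε k : ℂ) * y k with hz
  have h1 : dt z y = ((∑ k, wt μ ε k * ‖y k‖ ^ 2 : ℝ) : ℂ) := by
    simp only [dt, hz, RCLike.inner_apply', map_mul, Complex.conj_ofReal, mul_assoc,
      Complex.conj_mul']
    norm_cast
  have h2 : y = ac (N * C) c := rfl
  have h3 : sq (ac (N * C)ᴴ z) ≤ ε * ∑ k, wt μ ε k * ‖y k‖ ^ 2 := by
    rw [← en_gram, Matrix.conjTranspose_conjTranspose, h.dg, en_diag, Finset.mul_sum]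
    refine Finset.sum_le_sum fun k _ => ?_
    rw [hz]
    simp only [norm_mul, Complex.norm_real, Real.norm_of_nonneg (h.wt_pos hε k).le]
    have := mul_le_mul_of_nonneg_right (h.wt_mu hε k)
      (mul_nonneg (h.wt_pos hε k).le (sq_nonneg ‖y k‖))
    nlinarith
  have h4 := norm_dt_le (ac (N * C)ᴴ z) c ε⁻¹ (inv_pos.2 hε)
  rw [← dt_ac, ← h2, h1, Complex.norm_real] at h4
  have h5 : ε⁻¹ / 2 * sq (ac (N * C)ᴴ z) ≤ (∑ k, wt μ ε k * ‖y k‖ ^ 2) / 2 := by
    refine (mul_le_mul_of_nonneg_left h3 (by positivity)).trans (le_of_eq ?_)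
    field_simp
  have h6 : 1 / (2 * ε⁻¹) * sq c ≤ ε / 2 := by
    refine (mul_le_mul_of_nonneg_left (show sq c ≤ 1 from hc) (by positivity)).trans (le_of_eq ?_)
    field_simp
  have h7 := le_abs_self (∑ k, wt μ ε k * ‖y k‖ ^ 2)
  rw [Real.norm_eq_abs] at h4
  linarith

end NF

end

end Crest.Agent.X261.Fam
end

-- ▼ part X261/Fam/PW
section

/-!
# Row 261, package FAM (helper12), part PW: the pointwise inequalities
-/

set_option autoImplicit false
set_option linter.unusedSectionVars false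

open Matrix Finset Filter Topology
open scoped ComplexConjugate ComplexOrder MatrixOrder InnerProductSpace Kronecker

namespace Crest.Agent.X261.Fam

open Crest.Agent.R273.Fock_243 Crest.Agent.R273.GamR_155

noncomputable section

variable {H : Type*} [NormedAddCommGroup H] [InnerProductSpace ℂ H] {n q : ℕ}
  {G : Mt n} {C : Mr n q} {ε : ℝ}

theorem Dm_zero_nonneg (hG : G.PosDef) (C : Mr n q) : 0 ≤ Dm G C 0 := (Dp_facts (Hm_psd hG C)).2.1

theorem Dm_mono (hG : G.PosDef) (C : Mr n q) {ε ε' : ℝ} (h0 : 0 ≤ ε) (h : ε ≤ ε') :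
    Dm G C ε ≤ Dm G C ε' := (Dp_facts (Hm_psd hG C)).2.2.1 ε ε' h0 h

theorem Dm_pos (hG : G.PosDef) (C : Mr n q) (hε : 0 < ε) : 0 < Dm G C ε :=
  ((Dp_facts (Hm_psd hG C)).2.2.2 ε hε).1

theorem vt_nonneg (μ : Fin n → ℝ) (k : Fin n) : 0 ≤ vt μ k := by
  unfold vt; split_ifs <;> norm_num


theorem Q0_psd (hG : G.PosDef) (C : Mr n q) : (Q0 G C).PosSemidef := by
  obtain ⟨N, μ, h⟩ := exists_NF hG C
  rw [h.Q0_eq hG]
  refine PosSemidef.smul (PosSemidef.conjTranspose_mul_mul_same ?_ N)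
    (Complex.zero_le_real.2 (mul_nonneg (det_re_pos hG).le (Dm_zero_nonneg hG C)))
  exact posSemidef_diagonal_iff.2 fun k => Complex.zero_le_real.2 (vt_nonneg μ k)

theorem e0_nonneg (hG : G.PosDef) (C : Mr n q) (θ : Fin n → H) : 0 ≤ e0 G C θ :=
  en_nonneg (Q0_psd hG C) θ


theorem e0_eq_vI (hG : G.PosDef) (C : Mr n q) (θ : Fin n → H) :
    e0 G C θ = G.det.re * en (Gam G⁻¹) (ac (vI C) θ) := by
  rw [e0, Q0, det_ofReal hG, en_smul, en_conj, Complex.ofReal_re]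

namespace NF

variable {N : Mt n} {μ : Fin n → ℝ} (h : NF G C N μ)
include h

/-- the excess splits into a vertical and a horizontal part -/
theorem exc_eq (hG : G.PosDef) (hε : 0 < ε) (θ : Fin n → H) : ee G C ε θ - e0 G C θ =
    G.det.re * (Dm G C ε - Dm G C 0) * ∑ k, vt μ k * ‖ac N θ k‖ ^ 2 +
      G.det.re * Dm G C ε * ∑ k, (wt μ ε k - vt μ k) * ‖ac N θ k‖ ^ 2 := by
  rw [h.ee_eq hG hε, h.e0_eq hG]
  simp only [sub_mul, Finset.sum_sub_distrib]
  ring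

theorem sv_nonneg (θ : Fin n → H) : 0 ≤ ∑ k, vt μ k * ‖ac N θ k‖ ^ 2 :=
  Finset.sum_nonneg fun k _ => mul_nonneg (vt_nonneg μ k) (sq_nonneg _)

theorem sh_nonneg (hε : 0 < ε) (θ : Fin n → H) :
    0 ≤ ∑ k, (wt μ ε k - vt μ k) * ‖ac N θ k‖ ^ 2 :=
  Finset.sum_nonneg fun k _ => mul_nonneg (sub_nonneg.2 (h.vt_le hε k)) (sq_nonneg _)

theorem ver_le (hG : G.PosDef) (hε : 0 < ε) (θ : Fin n → H) :
    G.det.re * (Dm G C ε - Dm G C 0) * ∑ k, vt μ k * ‖ac N θ k‖ ^ 2 ≤ ee G C ε θ - e0 G C θ := by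
  rw [h.exc_eq hG hε]
  exact le_add_of_nonneg_right
    (mul_nonneg (mul_pos (det_re_pos hG) (Dm_pos hG C hε)).le (h.sh_nonneg hε θ))

theorem hor_le (hG : G.PosDef) (hε : 0 < ε) (θ : Fin n → H) :
    G.det.re * Dm G C ε * ∑ k, (wt μ ε k - vt μ k) * ‖ac N θ k‖ ^ 2 ≤ ee G C ε θ - e0 G C θ := by
  rw [h.exc_eq hG hε]
  exact le_add_of_nonneg_left (mul_nonneg (mul_nonneg (det_re_pos hG).le
    (sub_nonneg.2 (Dm_mono hG C le_rfl hε.le))) (h.sv_nonneg θ))

theorem wt_sub (hε : 0 < ε) (k : Fin n) :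
    wt μ ε k - vt μ k = if μ k = 0 then 0 else wt μ ε k := by
  unfold vt
  split_ifs with hk
  · unfold wt; rw [hk, add_zero, div_self hε.ne', sub_self]
  · rw [sub_zero]

end NF

theorem e0_le_ee (hG : G.PosDef) (C : Mr n q) (hε : 0 < ε) (θ : Fin n → H) :
    e0 G C θ ≤ ee G C ε θ := by
  obtain ⟨N, μ, h⟩ := exists_NF hG C
  have h1 := h.hor_le hG hε θ
  have h2 := mul_nonneg (mul_pos (det_re_pos hG) (Dm_pos hG C hε)).le (h.sh_nonneg hε θ)
  linarith



theorem tendsto_ee (hG : G.PosDef) (C : Mr n q) (θ : Fin n → H) :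
    Tendsto (fun ε => ee G C ε θ) (𝓝[>] 0) (𝓝 (e0 G C θ)) := by
  obtain ⟨N, μ, h⟩ := exists_NF hG C
  rw [h.e0_eq hG]
  refine Tendsto.congr' (f₁ := fun ε => G.det.re * Dm G C ε * ∑ k, wt μ ε k * ‖ac N θ k‖ ^ 2) ?_ ?_
  · filter_upwards [self_mem_nhdsWithin] with ε hε
    exact (h.ee_eq hG hε θ).symm
  refine Tendsto.mul (Tendsto.const_mul _
    (((continuous_Dp _).tendsto 0).mono_left nhdsWithin_le_nhds)) ?_
  refine tendsto_finsetSum _ fun k _ => Tendsto.mul_const _ ?_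
  unfold vt
  split_ifs with hk
  · refine Tendsto.congr' (f₁ := fun _ => 1) ?_ tendsto_const_nhds
    filter_upwards [self_mem_nhdsWithin] with ε hε
    unfold wt; rw [hk, add_zero, div_self (ne_of_gt hε)]
  · have h1 : ContinuousAt (fun ε : ℝ => ε / (ε + μ k)) 0 :=
      continuousAt_id.div (by fun_prop) (by simpa using hk)
    have h2 := h1.tendsto.mono_left (nhdsWithin_le_nhds (s := Set.Ioi 0))
    simpa [wt] using h2

theorem norm_trace_le {Z Y : Mt q} {z y : ℝ} (hz : ∀ a b, ‖Z a b‖ ≤ z) (hy : ∀ a b, ‖Y a b‖ ≤ y) :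
    ‖(Z * Y).trace‖ ≤ q ^ 2 * (z * y) := by
  simp only [Matrix.trace, Matrix.diag, Matrix.mul_apply]
  calc ‖∑ a, ∑ b, Z a b * Y b a‖ ≤ ∑ _a : Fin q, ∑ _b : Fin q, z * y := by
        refine (norm_sum_le _ _).trans (Finset.sum_le_sum fun a _ => ?_)
        refine (norm_sum_le _ _).trans (Finset.sum_le_sum fun b _ => ?_)
        rw [norm_mul]
        exact mul_le_mul (hz a b) (hy b a) (norm_nonneg _) ((norm_nonneg _).trans (hz a b))
    _ = _ := by simp; ring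

/-- the constant of `pw1` -/
def c1 (q : ℕ) : ℝ := q ^ 2 * (1 + q) + q ^ 3 + q

/-- **PW1**: horizontal test forms see the vertical energy -/
theorem pw1 (hG : G.PosDef) (C : Mr n q) (hε : 0 < ε) {Z : Mt q} {z : ℝ} (hz0 : 0 ≤ z)
    (hz : ∀ a b, ‖Z a b‖ ≤ z) (θ : Fin n → H) :
    ‖((ε ^ q / ε : ℝ) : ℂ) * ip (Wm (gE G C ε) (C * Z * Cᴴ)) θ θ - Z.trace * e0 G C θ‖ ≤
      c1 q * z * (ee G C ε θ - e0 G C θ) := by
  obtain ⟨N, μ, h⟩ := exists_NF hG C
  set g := gE G C ε with hg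
  have hgp : g.PosDef := gE_posDef hG C hε
  set Y : Mt q := (ε : ℂ) • ((ε : ℂ) • (1 : Mt q) + Hm G C)⁻¹ with hY
  have hYb := ((Dp_facts (Hm_psd hG C)).2.2.2 ε hε).2
  set V : ℝ := G.det.re * Dm G C ε with hV
  have hV0 : 0 < V := mul_pos (det_re_pos hG) (Dm_pos hG C hε)
  have hε' : (ε : ℂ) ≠ 0 := Complex.ofReal_ne_zero.2 hε.ne'
  set y : Fin q → H := ac (Cᴴ * g⁻¹) θ with hy
  have e1 : ((ε⁻¹ : ℝ) : ℂ) * (g⁻¹ * (C * Z * Cᴴ)).trace = (Z * (1 - Y)).trace := by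
    rw [hY, ← res_eq hG C hε, Matrix.mul_smul, Matrix.trace_smul, smul_eq_mul, ← hg]
    congr 1
    rw [← Matrix.mul_assoc, ← Matrix.mul_assoc, Matrix.mul_assoc (g⁻¹ * C), Matrix.trace_mul_comm]
    simp only [Matrix.mul_assoc]
  have e2 : ip (g⁻¹ * (C * Z * Cᴴ) * g⁻¹) θ θ = ip Z y y := by
    rw [hy, ← ip_conj, Matrix.conjTranspose_mul, Matrix.conjTranspose_conjTranspose, hgp.inv.1.eq]
    simp only [Matrix.mul_assoc]
  have e3 : (V : ℂ) * ip g⁻¹ θ θ = ee G C ε θ := by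
    rw [ee, ← ip_real (Qe_posDef hG C hε).1, Qe_eq hG C hε, ip_smul]
  have e4 : ((ε ^ q / ε : ℝ) : ℂ) * ip (Wm g (C * Z * Cᴴ)) θ θ - Z.trace * e0 G C θ =
      (Z * (1 - Y)).trace * ((ee G C ε θ - e0 G C θ : ℝ) : ℂ) - (Z * Y).trace * e0 G C θ -
        ((V / ε : ℝ) : ℂ) * ip Z y y := by
    have e5 : Z.trace = (Z * (1 - Y)).trace + (Z * Y).trace := by
      rw [← Matrix.trace_add, ← Matrix.mul_add, sub_add_cancel, Matrix.mul_one]
    have e6 := det_gE hG C hε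
    rw [← hg, ← hV] at e6
    rw [Wm, ip_smul, ip_sub, ip_smul, e2, e5, Complex.ofReal_sub, ← e3, ← e1]
    push_cast at e6 ⊢
    rw [← e6]
    field_simp
    ring
  have hδ : 0 ≤ ee G C ε θ - e0 G C θ := sub_nonneg.2 (e0_le_ee hG C hε θ)
  have b1 : ‖(Z * (1 - Y)).trace‖ ≤ q ^ 2 * (z * (1 + q)) := by
    refine norm_trace_le hz fun a b => ?_
    rw [Matrix.sub_apply]
    refine (norm_sub_le _ _).trans (add_le_add ?_ (hYb a b).1)
    rw [Matrix.one_apply]; split_ifs <;> simp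
  have b2 : ‖(Z * Y).trace‖ * e0 G C θ ≤ q ^ 3 * z * (ee G C ε θ - e0 G C θ) := by
    have h1 : ‖(Z * ((Dm G C 0 : ℂ) • Y)).trace‖ ≤ q ^ 2 * (z * (q * (Dm G C ε - Dm G C 0))) := by
      refine norm_trace_le hz fun a b => ?_
      rw [Matrix.smul_apply, norm_smul, Complex.norm_real,
        Real.norm_of_nonneg (Dm_zero_nonneg hG C)]
      exact (hYb a b).2
    rw [Matrix.mul_smul, Matrix.trace_smul, norm_smul, Complex.norm_real,
      Real.norm_of_nonneg (Dm_zero_nonneg hG C)] at h1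
    have h2 := h.ver_le hG hε θ
    have h3 := h.sv_nonneg θ
    have h4 := (det_re_pos hG).le
    rw [h.e0_eq hG]
    rw [h.e0_eq hG] at h2
    set S := ∑ k, vt μ k * ‖ac N θ k‖ ^ 2
    calc ‖(Z * Y).trace‖ * (G.det.re * Dm G C 0 * S)
        = Dm G C 0 * ‖(Z * Y).trace‖ * (G.det.re * S) := by ring
      _ ≤ q ^ 2 * (z * (q * (Dm G C ε - Dm G C 0))) * (G.det.re * S) := by gcongr
      _ = q ^ 3 * z * (G.det.re * (Dm G C ε - Dm G C 0) * S) := by ring
      _ ≤ _ := by gcongr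
  have b3 : V / ε * ‖ip Z y y‖ ≤ q * z * (ee G C ε θ - e0 G C θ) := by
    have h1 := norm_ip_le_ent hz y
    rw [Fintype.card_fin] at h1
    have h2 : sq y ≤ ε * ∑ k, (wt μ ε k - vt μ k) * ‖ac N θ k‖ ^ 2 := by
      have h3 : (Cᴴ * g⁻¹)ᴴ * (Cᴴ * g⁻¹) =
          Nᴴ * diagonal (fun k => ((wt μ ε k * μ k * wt μ ε k : ℝ) : ℂ)) * N := by
        rw [Matrix.conjTranspose_mul, Matrix.conjTranspose_conjTranspose, hgp.inv.1.eq, hg,
          h.ginv hε]
        calc _ = Nᴴ * (diagonal (fun k => (wt μ ε k : ℂ)) * (N * C * (N * C)ᴴ) *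
              diagonal (fun k => (wt μ ε k : ℂ))) * N := by
              simp only [Matrix.conjTranspose_mul, Matrix.mul_assoc]
          _ = _ := by
              rw [h.dg, Matrix.diagonal_mul_diagonal, Matrix.diagonal_mul_diagonal]
              push_cast
              rfl
      rw [hy, ← en_gram, h3, en_conj, en_diag, Finset.mul_sum]
      refine Finset.sum_le_sum fun k _ => ?_
      rw [← mul_assoc, h.wt_sub hε]
      refine mul_le_mul_of_nonneg_right ?_ (sq_nonneg _)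
      split_ifs with hk
      · simp [hk]
      · exact mul_le_mul_of_nonneg_right (h.wt_mu hε k) (h.wt_pos hε k).le
    have h4 := h.hor_le hG hε θ
    rw [← hV] at h4
    set S := ∑ k, (wt μ ε k - vt μ k) * ‖ac N θ k‖ ^ 2
    calc V / ε * ‖ip Z y y‖ ≤ V / ε * (z * q * (ε * S)) := by
          gcongr
          exact h1.trans (by gcongr)
      _ = q * z * (V * S) := by field_simp
      _ ≤ _ := by gcongr
  rw [e4]
  refine (norm_sub_le _ _).trans ((add_le_add (norm_sub_le _ _) le_rfl).trans ?_)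
  rw [norm_mul, norm_mul, norm_mul, Complex.norm_real, Complex.norm_real, Complex.norm_real,
    Real.norm_of_nonneg hδ, Real.norm_of_nonneg (e0_nonneg hG C θ),
    Real.norm_of_nonneg (div_pos hV0 hε).le, c1]
  nlinarith [mul_le_mul_of_nonneg_right b1 hδ]

/-- the normalised square norm of a `(1,1)`-tensor -/
def na (G : Mt n) (C : Mr n q) (ε : ℝ) (A : Fin n × Fin n → H) : ℝ :=
  G.det.re * Dm G C ε / ε * en (K4 (gE G C ε)) A

theorem NF.na_eq {N : Mt n} {μ : Fin n → ℝ} (h : NF G C N μ) (hε : 0 < ε)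
    (A : Fin n × Fin n → H) : na G C ε A = G.det.re * Dm G C ε / ε *
      ∑ k, ∑ l, wt μ ε k * wt μ ε l * ‖ac (N2 N) A (k, l)‖ ^ 2 := by
  rw [na, h.K4_eq hε, en_conj, en_diag, Fintype.sum_prod_type]

theorem na_nonneg (hG : G.PosDef) (C : Mr n q) (hε : 0 < ε) (A : Fin n × Fin n → H) :
    0 ≤ na G C ε A := by
  obtain ⟨N, μ, h⟩ := exists_NF hG C
  rw [h.na_eq hε]
  exact mul_nonneg (div_pos (mul_pos (det_re_pos hG) (Dm_pos hG C hε)) hε).le
    (Finset.sum_nonneg fun k _ => Finset.sum_nonneg fun l _ =>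
      mul_nonneg (mul_pos (h.wt_pos hε k) (h.wt_pos hε l)).le (sq_nonneg _))

/-- the algebraic side of the Siu-Sampson identity -/
theorem na_eq_W4 (hG : G.PosDef) (C : Mr n q) (hε : 0 < ε) (A : Fin n × Fin n → H) :
    na G C ε A = ‖trH (Qe G C ε) A‖ ^ 2 / (ε * (G.det.re * Dm G C ε)) -
      ε ^ q / ε * (ip (W4 (gE G C ε)) A A).re := by
  have hV : 0 < G.det.re * Dm G C ε := mul_pos (det_re_pos hG) (Dm_pos hG C hε)
  have h1 : trH (Qe G C ε) A = ((G.det.re * Dm G C ε : ℝ) : ℂ) • trH (gE G C ε)⁻¹ A := by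
    rw [Qe_eq hG C hε]
    simp only [trH, Matrix.smul_apply, smul_eq_mul, Finset.smul_sum, smul_smul]
  have h2 : ε ^ q * (ip (W4 (gE G C ε)) A A).re = G.det.re * Dm G C ε *
      (‖trH (gE G C ε)⁻¹ A‖ ^ 2 - en (K4 (gE G C ε)) A) := by
    rw [← Complex.re_ofReal_mul, ip_W4 (gE_posDef hG C hε).1, ← mul_assoc, det_gE hG C hε,
      Complex.re_ofReal_mul, Complex.sub_re, inner_self_c, Complex.ofReal_re, en]
  rw [h1, norm_smul, Complex.norm_real, Real.norm_of_nonneg hV.le, na, div_mul_eq_mul_div (ε ^ q),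
    h2]
  field_simp
  ring

theorem amgm (a b s : ℝ) (hs : 0 < s) : a * b ≤ s / 2 * a ^ 2 + 1 / (2 * s) * b ^ 2 := by
  have h : 0 ≤ (s * a - b) ^ 2 / (2 * s) := by positivity
  have e : (s * a - b) ^ 2 / (2 * s) = s / 2 * a ^ 2 + 1 / (2 * s) * b ^ 2 - a * b := by
    field_simp; ring
  linarith

/-- **PW2**: the Stokes term; the factor `1/4` uses that `A` is Hermitian -/
theorem pw2 (hG : G.PosDef) (C : Mr n q) (hε : 0 < ε) (cj : Cj H) {A : Fin n × Fin n → H}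
    (hA : ∀ a b, cj.J (A (a, b)) = A (b, a)) {c : Fin q → ℂ} (hc : ∑ j, ‖c j‖ ^ 2 ≤ 1)
    (θ : Fin n → H) {t κ : ℝ} (ht : 0 < t) (hκ : 0 < κ) :
    ε ^ q / ε * ‖ip (W4 (gE G C ε)) (tn θ (C *ᵥ c)) A‖ ≤ t / 2 * ee G C ε θ +
      (1 / (4 * t) + κ) * na G C ε A + (n + 2) / (2 * κ) * (ee G C ε θ - e0 G C θ) := by
  obtain ⟨N, μ, h⟩ := exists_NF hG C
  set V : ℝ := G.det.re * Dm G C ε with hV
  have hV0 : 0 < V := mul_pos (det_re_pos hG) (Dm_pos hG C hε)
  set y := (N * C) *ᵥ c with hy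
  set θ' := ac N θ with hθ'
  set A' := ac (N2 N) A with hA'
  set w := wt μ ε with hw
  have hw0 : ∀ k, 0 < w k := h.wt_pos hε
  have hs : ∑ k, w k * ‖y k‖ ^ 2 ≤ ε := h.hor_vec hε hc
  have hy0 : ∀ l, μ l = 0 → y l = 0 := fun l hl => by
    simp [hy, Matrix.mulVec, dotProduct, h.row_zero hl]
  have hsym : ∀ k l, ‖A' (k, l)‖ = ‖A' (l, k)‖ := fun k l => by
    rw [← cj.norm (A' (k, l)), hA', cj.ac]
    congr 1
    simp only [ac, N2, Matrix.map_apply, kroneckerMap_apply, Fintype.sum_prod_type, hA, map_mul,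
      Complex.conj_conj]
    rw [Finset.sum_comm]
    exact Finset.sum_congr rfl fun a _ => Finset.sum_congr rfl fun b _ => by rw [mul_comm]
  set NA := ∑ k, ∑ l, w k * w l * ‖A' (k, l)‖ ^ 2 with hNA
  set Hs := ∑ k, (w k - vt μ k) * ‖θ' k‖ ^ 2 with hHs
  set Es := ∑ k, w k * ‖θ' k‖ ^ 2 with hEs
  have hHs0 : 0 ≤ Hs := h.sh_nonneg hε θ
  have hEs0 : 0 ≤ Es := Finset.sum_nonneg fun k _ => mul_nonneg (hw0 k).le (sq_nonneg _)
  have hB : ac (N2 N) (tn θ (C *ᵥ c)) = tn θ' y := by rw [ac_N2_tn, Matrix.mulVec_mulVec]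
  -- first term
  have t1 : ‖⟪trH (gE G C ε)⁻¹ (tn θ (C *ᵥ c)), trH (gE G C ε)⁻¹ A⟫_ℂ‖ ≤
      (n + 1) / (2 * κ) * (ε * Hs) + κ / 2 * NA := by
    rw [h.trH_eq hε, h.trH_eq hε, hB]
    refine (norm_inner_le_norm _ _).trans ((amgm _ _ ((n + 1) / κ) (by positivity)).trans ?_)
    have u1 : ‖∑ k, (wt μ ε k : ℂ) • tn θ' y (k, k)‖ ^ 2 ≤ ε * Hs := by
      have u2 : ‖∑ k, (wt μ ε k : ℂ) • tn θ' y (k, k)‖ ≤
          ∑ k, (√(w k) * ‖y k‖) * (√(w k - vt μ k) * ‖θ' k‖) := by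
        refine (norm_sum_le _ _).trans (Finset.sum_le_sum fun k _ => ?_)
        rw [norm_smul, tn, norm_smul, Complex.norm_real, Real.norm_of_nonneg (hw0 k).le,
          RCLike.norm_conj]
        by_cases hk : μ k = 0
        · simp [hy0 k hk]
        · have : vt μ k = 0 := if_neg hk
          rw [this, sub_zero, mul_mul_mul_comm, Real.mul_self_sqrt (hw0 k).le]
      refine (pow_le_pow_left₀ (norm_nonneg _) u2 2).trans
        ((Finset.sum_mul_sq_le_sq_mul_sq _ _ _).trans ?_)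
      have hv : ∀ k, 0 ≤ w k - vt μ k := fun k => sub_nonneg.2 (h.vt_le hε k)
      simp only [mul_pow, Real.sq_sqrt (hw0 _).le, Real.sq_sqrt (hv _)]
      exact mul_le_mul_of_nonneg_right hs hHs0
    have u3 : ‖∑ k, (wt μ ε k : ℂ) • ac (N2 N) A (k, k)‖ ^ 2 ≤ n * NA := by
      have u2 : ‖∑ k, (wt μ ε k : ℂ) • ac (N2 N) A (k, k)‖ ≤ ∑ k, 1 * (w k * ‖A' (k, k)‖) := by
        refine (norm_sum_le _ _).trans (Finset.sum_le_sum fun k _ => ?_)
        rw [norm_smul, Complex.norm_real, Real.norm_of_nonneg (hw0 k).le, one_mul]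
      refine (pow_le_pow_left₀ (norm_nonneg _) u2 2).trans
        ((Finset.sum_mul_sq_le_sq_mul_sq _ _ _).trans ?_)
      simp only [one_pow, Finset.sum_const, Finset.card_univ, Fintype.card_fin, nsmul_eq_mul,
        mul_one]
      refine mul_le_mul_of_nonneg_left (Finset.sum_le_sum fun k _ => ?_) (Nat.cast_nonneg n)
      refine le_trans (le_of_eq (by ring)) (Finset.single_le_sum
        (f := fun l => w k * w l * ‖A' (k, l)‖ ^ 2)
        (fun l _ => mul_nonneg (mul_pos (hw0 k) (hw0 l)).le (sq_nonneg _)) (mem_univ k))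
    have hNA0 : 0 ≤ NA := Finset.sum_nonneg fun k _ => Finset.sum_nonneg fun l _ =>
      mul_nonneg (mul_pos (hw0 k) (hw0 l)).le (sq_nonneg _)
    refine add_le_add ?_ ?_
    · refine (mul_le_mul_of_nonneg_left u1 (by positivity)).trans (le_of_eq ?_)
      field_simp
    · refine (mul_le_mul_of_nonneg_left u3 (by positivity)).trans ?_
      have : 1 / (2 * ((n + 1) / κ)) * (n * NA) = κ / 2 * NA * (n / (n + 1)) := by field_simp
      rw [this]
      exact mul_le_of_le_one_right (by positivity) ((div_le_one (by positivity)).2 (by linarith))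
  -- second term
  have t2 : ‖ip (K4 (gE G C ε)) (tn θ (C *ᵥ c)) A‖ ≤
      t / 2 * (ε * Es) + 1 / (4 * t) * NA + 1 / (2 * κ) * (ε * Hs) + κ / 2 * NA := by
    rw [h.K4_eq hε, ip_conj, hB, ip_diag, Fintype.sum_prod_type]
    have u1 : ∀ k l, ‖((wt μ ε k * wt μ ε l : ℝ) : ℂ) * ⟪tn θ' y (k, l), A' (k, l)⟫_ℂ‖ ≤
        (t / 2 * (w k * ‖θ' k‖ ^ 2) + 1 / (2 * κ) * ((w k - vt μ k) * ‖θ' k‖ ^ 2)) *
          (w l * ‖y l‖ ^ 2) + (1 / (2 * t) * (vt μ k * (1 - vt μ l) * (w k * w l * ‖A' (k, l)‖ ^ 2))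
            + κ / 2 * (w k * w l * ‖A' (k, l)‖ ^ 2)) := fun k l => by
      have hkl := mul_pos (hw0 k) (hw0 l)
      have u2 : ‖((wt μ ε k * wt μ ε l : ℝ) : ℂ) * ⟪tn θ' y (k, l), A' (k, l)⟫_ℂ‖ ≤
          w k * w l * ((‖y l‖ * ‖θ' k‖) * ‖A' (k, l)‖) := by
        rw [norm_mul, Complex.norm_real, Real.norm_of_nonneg hkl.le]
        refine mul_le_mul_of_nonneg_left ((norm_inner_le_norm _ _).trans (le_of_eq ?_)) hkl.le
        rw [tn, norm_smul, RCLike.norm_conj]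
      refine u2.trans ?_
      have p1 : 0 ≤ w k * w l * (‖y l‖ * ‖θ' k‖) ^ 2 := by positivity
      have p2 : 0 ≤ w k * w l * ‖A' (k, l)‖ ^ 2 := by positivity
      by_cases hl : μ l = 0
      · have : vt μ l = 1 := if_pos hl
        simp only [hy0 l hl, this, norm_zero, zero_mul, mul_zero, sub_self, ne_eq,
          OfNat.ofNat_ne_zero, not_false_eq_true, zero_pow, zero_add]
        positivity
      have hl' : vt μ l = 0 := if_neg hl
      by_cases hk : μ k = 0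
      · have hk' : vt μ k = 1 := if_pos hk
        have hk2 : w k - vt μ k = 0 := by rw [hw, h.wt_sub hε, if_pos hk]
        have u3 := mul_le_mul_of_nonneg_left (amgm (‖y l‖ * ‖θ' k‖) ‖A' (k, l)‖ t ht) hkl.le
        rw [hk2, hk', hl']
        have p3 : 0 ≤ κ / 2 * (w k * w l * ‖A' (k, l)‖ ^ 2) := by positivity
        nlinarith
      · have hk' : vt μ k = 0 := if_neg hk
        have u3 := mul_le_mul_of_nonneg_left
          (amgm (‖y l‖ * ‖θ' k‖) ‖A' (k, l)‖ κ⁻¹ (inv_pos.2 hκ)) hkl.le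
        have e1 : 1 / (2 * κ⁻¹) = κ / 2 := by field_simp
        have e2 : κ⁻¹ / 2 = 1 / (2 * κ) := by field_simp
        rw [e1, e2] at u3
        rw [hk']
        have p3 : 0 ≤ t / 2 * (w k * w l * (‖y l‖ * ‖θ' k‖) ^ 2) := by positivity
        nlinarith
    have u4 : ∑ k, ∑ l, vt μ k * (1 - vt μ l) * (w k * w l * ‖A' (k, l)‖ ^ 2) ≤ NA / 2 := by
      have u5 : ∑ k, ∑ l, vt μ k * (1 - vt μ l) * (w k * w l * ‖A' (k, l)‖ ^ 2) =
          ∑ k, ∑ l, vt μ l * (1 - vt μ k) * (w k * w l * ‖A' (k, l)‖ ^ 2) := by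
        rw [Finset.sum_comm]
        exact Finset.sum_congr rfl fun k _ => Finset.sum_congr rfl fun l _ => by
          rw [hsym l k]; ring
      have u6 : ∑ k, ∑ l, vt μ k * (1 - vt μ l) * (w k * w l * ‖A' (k, l)‖ ^ 2) +
          ∑ k, ∑ l, vt μ l * (1 - vt μ k) * (w k * w l * ‖A' (k, l)‖ ^ 2) ≤ NA := by
        rw [← Finset.sum_add_distrib]
        refine Finset.sum_le_sum fun k _ => ?_
        rw [← Finset.sum_add_distrib]
        refine Finset.sum_le_sum fun l _ => ?_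
        rw [← add_mul]
        refine mul_le_of_le_one_left (mul_nonneg (mul_pos (hw0 k) (hw0 l)).le (sq_nonneg _)) ?_
        unfold vt
        split_ifs <;> norm_num
      linarith
    refine (norm_sum_le _ _).trans ((Finset.sum_le_sum fun k _ => (norm_sum_le _ _).trans
      (Finset.sum_le_sum fun l _ => u1 k l)).trans ?_)
    simp only [Finset.sum_add_distrib, ← Finset.mul_sum, ← Finset.sum_mul]
    rw [← hNA, ← hHs, ← hEs]
    have u7 : (t / 2 * Es + 1 / (2 * κ) * Hs) * ∑ l, w l * ‖y l‖ ^ 2 ≤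
        (t / 2 * Es + 1 / (2 * κ) * Hs) * ε := mul_le_mul_of_nonneg_left hs (by positivity)
    have u8 := mul_le_mul_of_nonneg_left u4 (show 0 ≤ 1 / (2 * t) by positivity)
    have e1 : 1 / (2 * t) * (NA / 2) = 1 / (4 * t) * NA := by field_simp; ring
    nlinarith
  have e1 : ε ^ q / ε * ‖ip (W4 (gE G C ε)) (tn θ (C *ᵥ c)) A‖ = V / ε *
      ‖⟪trH (gE G C ε)⁻¹ (tn θ (C *ᵥ c)), trH (gE G C ε)⁻¹ A⟫_ℂ -
        ip (K4 (gE G C ε)) (tn θ (C *ᵥ c)) A‖ := by
    have e2 := congrArg norm (det_gE hG C hε)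
    rw [norm_mul, Complex.norm_real, Complex.norm_real, Real.norm_of_nonneg (by positivity),
      ← hV, Real.norm_of_nonneg hV0.le] at e2
    rw [ip_W4 (gE_posDef hG C hε).1, norm_mul, ← e2]
    ring
  have h4 := h.hor_le hG hε θ
  rw [← hV] at h4
  rw [e1, h.na_eq hε]
  conv_rhs => enter [1, 1, 2]; rw [h.ee_eq hG hε]
  change _ ≤ t / 2 * (V * Es) + (1 / (4 * t) + κ) * (V / ε * NA) + _
  refine (mul_le_mul_of_nonneg_left ((norm_sub_le _ _).trans (add_le_add t1 t2))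
    (div_pos hV0 hε).le).trans ?_
  have e3 : V / ε * ((n + 1) / (2 * κ) * (ε * Hs) + κ / 2 * NA +
      (t / 2 * (ε * Es) + 1 / (4 * t) * NA + 1 / (2 * κ) * (ε * Hs) + κ / 2 * NA)) =
      t / 2 * (V * Es) + (1 / (4 * t) + κ) * (V / ε * NA) + (n + 2) / (2 * κ) * (V * Hs) := by
    field_simp
    ring
  rw [e3]
  gcongr

theorem gam_psd (hG : G.PosDef) : (Gam G).PosSemidef := by
  obtain ⟨N, μ, h⟩ := exists_NF hG (0 : Mr n 0)
  rw [← h.inv_mul_ct, Gam_mul, ← Gam_ct]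
  exact posSemidef_self_mul_conjTranspose _

/-- **PW4**: the components of `θ ∧ τ` are bounded by the vertical energy -/
theorem pw4 (hG : G.PosDef) (C : Mr n q) (θ : Fin n → H) (I : FI n) :
    G.det.re * ‖ac (vI C) θ I‖ ^ 2 ≤ (Gam G I I).re * e0 G C θ := by
  obtain ⟨N, μ, h⟩ := exists_NF hG C
  have h1 : ac (vI C) θ = ac (Gam N⁻¹) (ac (Gam N) (ac (vI C) θ)) := by
    rw [← ac_mul, ← Gam_mul, Matrix.nonsing_inv_mul _ h.det_ne.isUnit, Gam_one, ac_one]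
  have h2 := norm_ac_sq_le (Gam N⁻¹) (ac (Gam N) (ac (vI C) θ)) I
  rw [← h1, Gam_ct, ← Gam_mul, h.inv_mul_ct, ← en_gram, Gam_ct, ← Gam_mul, h.inv] at h2
  rw [e0_eq_vI hG, mul_left_comm]
  exact mul_le_mul_of_nonneg_left h2 (det_re_pos hG).le

/-- **PW5**: the vertical part of a column of `A` -/
theorem pw5 (hG : G.PosDef) (C : Mr n q) (hε : 0 < ε) (h1 : ε ≤ 1) (A : Fin n × Fin n → H)
    (b : Fin n) :
    e0 G C (fun a => A (a, b)) ≤ (G b b).re * (1 + (Hm G C).trace.re) * na G C ε A := by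
  obtain ⟨N, μ, h⟩ := exists_NF hG C
  set A' := ac (N2 N) A with hA'
  have hu : IsUnit N.det := h.det_ne.isUnit
  have e1 : ∀ k, ac N (fun a => A (a, b)) k = ac (N⁻¹.map conj) (fun l => A' (k, l)) b := by
    intro k
    have e2 : ∀ c, ∑ l, conj (N⁻¹ b l) * conj (N l c) = if b = c then 1 else 0 := fun c => by
      have := congrFun (congrFun (Matrix.nonsing_inv_mul N hu) b) c
      rw [Matrix.mul_apply, Matrix.one_apply] at this
      simp only [← map_mul, ← map_sum, this]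
      split_ifs <;> simp
    simp only [hA', ac, N2, Matrix.map_apply, kroneckerMap_apply, Fintype.sum_prod_type,
      Finset.smul_sum, smul_smul]
    rw [Finset.sum_comm]
    refine Finset.sum_congr rfl fun a _ => ?_
    rw [Finset.sum_comm]
    simp only [← Finset.sum_smul, mul_left_comm _ (N k a), ← Finset.mul_sum, e2, mul_ite, mul_one,
      mul_zero, ite_smul, zero_smul, Finset.sum_ite_eq, Finset.mem_univ, if_true]
  have e3 : (((N⁻¹.map conj) * (N⁻¹.map conj)ᴴ) b b).re = (G b b).re := by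
    rw [← h.inv_mul_ct]
    simp only [Matrix.mul_apply, Matrix.conjTranspose_apply, Matrix.map_apply, RCLike.star_def,
      Complex.conj_conj, mul_comm]
  have hb : 0 ≤ (G b b).re := (Complex.nonneg_iff.1 (hG.posSemidef.diag_nonneg (i := b))).1
  have hT : ∀ k, μ k ≤ (Hm G C).trace.re := h.mu_le
  set T := (Hm G C).trace.re
  have hT0 : 0 ≤ T := (h.nn b).trans (hT b)
  have hd := det_re_pos hG
  have hD := Dm_pos hG C hε
  have hD0 := Dm_zero_nonneg hG C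
  have hDD := Dm_mono hG C le_rfl hε.le
  rw [h.e0_eq hG, h.na_eq hε, Finset.mul_sum, Finset.mul_sum, Finset.mul_sum]
  refine Finset.sum_le_sum fun k _ => ?_
  have e4 := norm_ac_sq_le (N⁻¹.map conj) (fun l => A' (k, l)) b
  rw [← e1, e3] at e4
  have e5 : vt μ k * ‖ac N (fun a => A (a, b)) k‖ ^ 2 ≤
      (G b b).re * ∑ l, wt μ ε k * ‖A' (k, l)‖ ^ 2 := by
    rw [← Finset.mul_sum, mul_left_comm]
    exact mul_le_mul (h.vt_le hε k) e4 (sq_nonneg _) (h.wt_pos hε k).le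
  refine (mul_le_mul_of_nonneg_left e5 (by positivity)).trans ?_
  simp only [Finset.mul_sum]
  refine Finset.sum_le_sum fun l _ => ?_
  have e6 : Dm G C 0 ≤ (1 + T) * (Dm G C ε / ε * wt μ ε l) := by
    have hp : 0 < ε + μ l := by linarith [h.nn l]
    have : Dm G C ε / ε * wt μ ε l = Dm G C ε / (ε + μ l) := by unfold wt; field_simp
    rw [this, mul_div_assoc', le_div_iff₀ hp]
    nlinarith [hT l, h.nn l]
  have e7 := mul_le_mul_of_nonneg_left e6 (show 0 ≤ G.det.re * (G b b).re *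
    (wt μ ε k * ‖A' (k, l)‖ ^ 2) from mul_nonneg (by positivity)
      (mul_nonneg (h.wt_pos hε k).le (sq_nonneg _)))
  refine le_trans (le_of_eq (by ring)) (e7.trans (le_of_eq (by ring)))

end

end Crest.Agent.X261.Fam
end

-- ▼ part X261/Fam/St

/-!
# Row 261, package FAM (helper12), part St: the flat statements

* `KF U G` : Kaehler metric on an open subset of `ℂ^n`; `Cf a`, `th F`, `Am F`, `Sl a F`, `d1`;
* `Sq` : approximate minimisers of the energy of `Q` on a compact set;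
* `MolStmt` (Friedrichs), `FsStmt` (Siu-Sampson and Stokes for approximate minimisers),
  `HolStmt` (weakly holomorphic limits), `LioStmt` (Liouville).
-/

set_option autoImplicit false
set_option linter.unusedSectionVars false

open Set Filter Topology MeasureTheory Matrix
open scoped ComplexConjugate ComplexOrder InnerProductSpace ContDiff NNReal

namespace Crest.Agent.X261.Fam

open Crest.Agent.R275.Geo Crest.Agent.R275.EDR890 Crest.Agent.R273.Hess_333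
open Crest.Agent.R273.Fock_243

noncomputable section

variable {n q : ℕ} {H : Type*} [NormedAddCommGroup H] [InnerProductSpace ℂ H]

/-- a Kaehler metric on an open set -/
structure KF (U : Set (Cn n)) (G : Cn n → Mt n) : Prop where
  opn : IsOpen U
  sm : ∀ a b, ContDiffOn ℝ ∞ (fun z => G z a b) U
  pos : ∀ z ∈ U, (G z).PosDef
  closed : ∀ z ∈ U, ∀ a b c,
    wd (false, c) (fun w => G w a b) z = wd (false, a) (fun w => G w c b) z
  closed' : ∀ z ∈ U, ∀ a b c,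
    wd (true, c) (fun w => G w a b) z = wd (true, b) (fun w => G w a c) z

/-- the matrix `∂ a_h / ∂ z_b` -/
def Cf (a : Cn n → Cn q) (z : Cn n) : Mr n q :=
  Matrix.of fun b h => wd (false, b) (fun w => a w h) z

/-- `∂ F` -/
def th (F : Cn n → H) (z : Cn n) : Fin n → H := fun b => wd (false, b) F z

/-- `∂ ∂̄ F` -/
def Am (F : Cn n → H) (z : Cn n) : Fin n × Fin n → H :=
  fun r => wd (false, r.1) (wd (true, r.2) F) z

/-- `∂ F ∧ da_1 ∧ … ∧ da_q` -/
def Sl (a : Cn n → Cn q) (F : Cn n → H) (z : Cn n) : FI n → H := ac (vI (Cf a z)) (th F z)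

/-- `y ⊗ ∂̄ φ` -/
def d1 (y : Fin n → ℂ) (φ : Cn n → ℝ) (z : Cn n) : Mt n :=
  Matrix.of fun c b => y c * wd (true, b) (cu φ) z

/-- approximate minimisers: smooth real maps, `∂ F_i` Cauchy in `L²(K')`, approximate
Euler-Lagrange equation for the energy of `Q` -/
structure Sq (cj : Cj H) (U : Set (Cn n)) (Q : Cn n → Mt n) (K' : Set (Cn n))
    (F : ℕ → Cn n → H) : Prop where
  sm : ∀ i, ContDiffOn ℝ ∞ (F i) U
  real : ∀ i, ∀ z ∈ U, cj.J (F i z) = F i z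
  cau : ∀ η : ℝ, 0 < η → ∃ N, ∀ i ≥ N, ∀ j ≥ N, ∫ z in K', sq (th (F i) z - th (F j) z) ≤ η
  el : ∀ δ : ℝ, 0 < δ → ∀ᶠ i in atTop, ∀ u : Cn n → H, ContDiff ℝ ∞ u → tsupport u ⊆ K' →
    (∀ z, cj.J (u z) = u z) →
    |∫ z, (ip (Q z) (th u z) (th (F i) z)).re| ≤ δ * √(∫ z, sq (th u z))

/-- **MOL** (Friedrichs): approximate minimisers are `L²`-close to smooth maps of small tension -/
def MolStmt : Prop :=
  ∀ (n : ℕ) (H : Type) [NormedAddCommGroup H] [InnerProductSpace ℂ H] [CompleteSpace H]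
    (cj : Cj H) (U : Set (Cn n)) (Q : Cn n → Mt n) (K K' : Set (Cn n)) (F : ℕ → Cn n → H),
    IsOpen U → (∀ a b, ContDiffOn ℝ ∞ (fun z => Q z a b) U) → (∀ z ∈ U, (Q z).IsHermitian) →
    (∀ z ∈ U, ∀ p, ∑ r, wd (true, r) (fun w => Q w r p) z = 0) →
    IsCompact K → IsCompact K' → K ⊆ interior K' → K' ⊆ U → Sq cj U Q K' F →
    ∀ η : ℝ, 0 < η → ∀ᶠ i in atTop, ∃ F' : Cn n → H, ContDiff ℝ ∞ F' ∧
      (∀ z, cj.J (F' z) = F' z) ∧ ∫ z in K, sq (th F' z - th (F i) z) ≤ η ∧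
      ∫ z in K, ‖trH (Q z) (Am F' z)‖ ^ 2 ≤ η

/-- the right hand side of the Siu-Sampson identity -/
def Rs (G : Cn n → Mt n) (a : Cn n → Cn q) (ε : ℝ) (φ : Cn n → ℝ) (F : Cn n → H) : ℝ :=
  ε ^ q / ε * (∫ z, ip (Wm (gE (G z) (Cf a z) ε) (hess φ z)) (th F z) (th F z)).re

/-- **FS**: Siu-Sampson and Stokes for approximate minimisers -/
def FsStmt : Prop :=
  ∀ (n q : ℕ) (H : Type) [NormedAddCommGroup H] [InnerProductSpace ℂ H] [CompleteSpace H]
    (cj : Cj H) (U : Set (Cn n)) (G : Cn n → Mt n) (a : Cn n → Cn q) (φ : Cn n → ℝ)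
    (K' : Set (Cn n)), KF U G → DifferentiableOn ℂ a U → ContDiff ℝ ∞ φ → (∀ z, 0 ≤ φ z) →
    IsCompact K' → tsupport φ ⊆ interior K' → K' ⊆ U →
    (∀ (ε : ℝ) (F : ℕ → Cn n → H), 0 < ε → ε ≤ 1 →
      Sq cj U (fun z => Qe (G z) (Cf a z) ε) K' F → ∀ η : ℝ, 0 < η →
      (∀ᶠ i in atTop, -η ≤ Rs G a ε φ (F i)) ∧
      ∀ (c : Fin q → ℂ) (t κ : ℝ), ∑ j, ‖c j‖ ^ 2 ≤ 1 → 0 < t → 0 < κ → ∀ᶠ i in atTop,
        ε ^ q / ε * ‖∫ z, ip (Wm (gE (G z) (Cf a z) ε) (d1 (Cf a z *ᵥ c) φ z))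
            (th (F i) z) (th (F i) z)‖ ≤
          t / 2 * (∫ z, φ z * ee (G z) (Cf a z) ε (th (F i) z)) +
          (1 / (4 * t) + κ) * Rs G a ε φ (F i) + (n + 2) / (2 * κ) *
            (∫ z, φ z * (ee (G z) (Cf a z) ε (th (F i) z) - e0 (G z) (Cf a z) (th (F i) z))) + η) ∧
    ∀ χ : Cn n → ℝ, ContDiff ℝ ∞ χ → tsupport χ ⊆ {z | 0 < φ z} → ∃ C : ℝ, 0 ≤ C ∧
      ∀ (ε : ℝ) (F : ℕ → Cn n → H), 0 < ε → ε ≤ 1 →
      Sq cj U (fun z => Qe (G z) (Cf a z) ε) K' F → ∀ η : ℝ, 0 < η → ∀ᶠ i in atTop,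
        ∀ (b : Fin n) (I : FI n),
        ‖∫ z, wd (true, b) (cu χ) z • Sl a (F i) z I‖ ^ 2 ≤ C * Rs G a ε φ (F i) + η

/-- **HOL**: an `L²`-Cauchy sequence whose `∂̄` tends to zero weakly has a holomorphic limit -/
def HolStmt : Prop :=
  ∀ (n : ℕ) (H : Type) [NormedAddCommGroup H] [InnerProductSpace ℂ H] [CompleteSpace H]
    (U : Set (Cn n)) (g : ℕ → Cn n → H), IsOpen U → (∀ k, ContinuousOn (g k) U) →
    (∀ K ⊆ U, IsCompact K → ∀ η : ℝ, 0 < η → ∃ N, ∀ k ≥ N, ∀ l ≥ N,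
      ∫ z in K, ‖g k z - g l z‖ ^ 2 ≤ η) →
    (∀ z₀ ∈ U, ∃ V ∈ 𝓝 z₀, ∀ χ : Cn n → ℝ, ContDiff ℝ ∞ χ → HasCompactSupport χ →
      tsupport χ ⊆ V → ∀ b,
        Tendsto (fun k => ∫ z, wd (true, b) (cu χ) z • g k z) atTop (𝓝 0)) →
    ∃ S : Cn n → H, DifferentiableOn ℂ S U ∧ ∀ K ⊆ U, IsCompact K →
      Tendsto (fun k => ∫ z in K, ‖g k z - S z‖ ^ 2) atTop (𝓝 0)

/-- a matrix acting on `ℂ^q` -/
def mL (L : Mt q) : Cn q →L[ℂ] Cn q := Matrix.toEuclideanCLM (𝕜 := ℂ) L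

theorem mL_apply (L : Mt q) (x : Cn q) (k : Fin q) : mL L x k = ∑ k', L k k' * x k' := rfl

/-- **LIO**: a measure on `ℂ^q` with `2 |∂E|² ≤ E ∂∂̄E` in all linear coordinates is a multiple of
the Lebesgue measure -/
def LioStmt : Prop :=
  ∀ (q : ℕ) (ν : Measure (Cn q)) [IsLocallyFiniteMeasure ν],
    (∀ L : Mt q, L.det ≠ 0 → ∀ ψ : Cn q → ℝ, ContDiff ℝ ∞ ψ → HasCompactSupport ψ →
      (∀ x, 0 ≤ ψ x) → ∀ (k : Fin q) (t : ℝ), 0 < t →
      ‖∫ x, wd (true, k) (cu ψ) (mL L x) ∂ν‖ ≤ t / 2 * ∫ x, ψ (mL L x) ∂ν +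
        1 / (4 * t) * ∫ x, (hess ψ (mL L x)).trace.re ∂ν) →
    ∃ E : ℝ≥0, ν = E • (volume : Measure (Cn q))

end

end Crest.Agent.X261.Fam
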